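import Vale.Agent.P071.Stmt

/-!
# The first Neumann eigenspace of the disc with a conformal metric `κ |dz|²`
-/

open MeasureTheory Metric
open scoped ContDiff ComplexConjugate

namespace Vale.Agent.P071.H262

open Vale.Agent.P071

/-- `μ₁(κ) = inf { ∫_D |∇v|² / ∫_D κ v² : v ∈ H¹(D), ∫_D κ v = 0, ∫_D κ v² > 0 }`, the first
positive Neumann eigenvalue of the unit disc `D` with the metric `κ |dz|²` (in dimension two the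
Dirichlet integral does not depend on `κ`). -/
noncomputable def muD (κ : ℂ → ℝ) : ℝ :=
  sInf {q : ℝ | ∃ v gx gy : ℂ → ℝ, IsH1 (ball 0 1) v gx gy ∧ ∫ z in ball (0 : ℂ) 1, κ z * v z = 0 ∧
    0 < ∫ z in ball (0 : ℂ) 1, κ z * v z ^ 2 ∧
    q = (∫ z in ball (0 : ℂ) 1, (gx z ^ 2 + gy z ^ 2)) / ∫ z in ball (0 : ℂ) 1, κ z * v z ^ 2}

/-- `u` is in the first Neumann eigenspace of `(D, κ |dz|²)`: `u ∈ H¹(D)` and
`∫_D ∇u · ∇v = μ₁(κ) ∫_D κ u v` for all `v ∈ H¹(D)`. -/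
def InVD (κ u : ℂ → ℝ) : Prop :=
  ∃ gx gy : ℂ → ℝ, IsH1 (ball 0 1) u gx gy ∧
    ∀ v hx hy : ℂ → ℝ, IsH1 (ball 0 1) v hx hy →
      ∫ z in ball (0 : ℂ) 1, (gx z * hx z + gy z * hy z) =
        muD κ * ∫ z in ball (0 : ℂ) 1, κ z * (u z * v z)

/-- `κ` is given on the closed disc by a power series in `z` and `conj z`:
`κ(z) = ∑ c_{mn} z^m (conj z)^n` with `∑ |c_{mn}| (1 + m + n)^8 < ∞`. -/
def SeriesWeight (κ : ℂ → ℝ) : Prop :=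
  ∃ c : ℕ × ℕ → ℂ, Summable (fun i => ‖c i‖ * (1 + (i.1 : ℝ) + i.2) ^ 8) ∧
    ∀ z : ℂ, ‖z‖ ≤ 1 → HasSum (fun i => c i * (z ^ i.1 * (conj z) ^ i.2)) (κ z : ℂ)

/-- `κ |dz|²` has Gauss curvature `-(Δ log κ) / (2 κ) ≤ 0` in the open disc:
`|∇κ|² ≤ κ Δκ`. -/
def NonposCurved (κ : ℂ → ℝ) : Prop :=
  ∀ z ∈ ball (0 : ℂ) 1, px κ z ^ 2 + py κ z ^ 2 ≤ κ z * (px (px κ) z + py (py κ) z)

end Vale.Agent.P071.H262
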