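import Vale.Agent.P071.H262.L2
import Vale.Agent.P071.H262.Def

set_option linter.all false

/-!
# The first Neumann eigenvalue and eigenspace in `H¹(D)` are given by series
-/

open scoped ComplexConjugate Topology Real ContDiff ENNReal
open Metric Filter MeasureTheory

noncomputable section

namespace Vale.Agent.P071.H262

open Vale.Agent.P071

variable {p : ℕ}

theorem WB_int {k a b : Y p} (hk : cj k = k) (ha : cj a = a) (hb : cj b = b) :
    ∫ z in ball (0 : ℂ) 1, (ev k z).re * ((ev a z).re * (ev b z).re) = π * WB k a b := by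
  rw [WB_complex ha, ← integral_ball_re]
  refine setIntegral_congr_fun measurableSet_ball fun z hz => ?_
  have hz' := (mem_ball_zero_iff.1 hz).le
  rw [ev_mul _ _ hz', ev_mul _ _ hz', ← ev_real hk z, ← ev_real ha z, ← ev_real hb z,
    ← Complex.ofReal_mul, ← Complex.ofReal_mul, Complex.ofReal_re, Complex.ofReal_re,
    Complex.ofReal_re, Complex.ofReal_re]

theorem isH1_ev (a : Y (p + 1)) : IsH1 (ball 0 1) (fun z => (ev a z).re) (px fun z => (ev a z).re)
    (py fun z => (ev a z).re) := by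
  have hc : ContDiffOn ℝ 1 (fun z => (ev a z).re) (ball 0 1) :=
    (contDiffOn_ev_re a (n := 1) (by omega)).mono ball_subset_closedBall
  refine Lim.isH1_of_c1 isOpen_ball hc (memLp_ev a).integrable_sq ?_
  have i1 : Integrable (fun z => (ev (dx p a) z).re ^ 2 + (ev (dy p a) z).re ^ 2)
      (volume.restrict (ball (0 : ℂ) 1)) := (memLp_ev _).integrable_sq.add (memLp_ev _).integrable_sq
  exact IntegrableOn.congr_fun i1 (fun z hz => (gsq_ev a (mem_ball_zero_iff.1 hz)).symm)
    measurableSet_ball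

/-- The Poincaré inequality tested against a series. -/
theorem poinc_aux {k : Y 8} (hk : IsW k) {v gx gy : ℂ → ℝ} (hv : IsH1 (ball 0 1) v gx gy)
    {ψ : Y 8} (hr : cj ψ = ψ) (hm : I 8 (k * ψ) = 0) :
    mu1 k * (∫ z in ball (0 : ℂ) 1, (ev k z).re * v z * (ev ψ z).re) ^ 2 ≤
      (∫ z in ball (0 : ℂ) 1, (gx z ^ 2 + gy z ^ 2)) *
        ∫ z in ball (0 : ℂ) 1, (ev k z).re * (ev ψ z).re ^ 2 := by
  set s : Y 9 := Sol 8 (k * ψ) with hs
  have hsr : cj s = s := by rw [hs, cj_Sol, cj_mul, hk.real, hr]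
  have hg := weak_green (p := 7) hv s (fun z hz => by
    rw [hs, ev_Rad_Sol _ hz, hm]; simp)
  have hlap : lap 7 s = -incl (Nat.le_succ 7) (k * ψ) := by rw [hs, lap_Sol]
  have e1 : -∫ z in ball (0 : ℂ) 1, v z * (ev (lap 7 s) z).re =
      ∫ z in ball (0 : ℂ) 1, (ev k z).re * v z * (ev ψ z).re := by
    rw [← integral_neg]
    refine setIntegral_congr_fun measurableSet_ball fun z hz => ?_
    rw [hlap, ev_neg, ev_incl, ev_mul _ _ (mem_ball_zero_iff.1 hz).le, ← ev_real hk.real z,
      ← ev_real hr z, ← Complex.ofReal_mul, ← Complex.ofReal_neg, Complex.ofReal_re,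
      Complex.ofReal_re, Complex.ofReal_re]
    ring
  rw [e1] at hg
  have hxm := memLp_ev (dx 8 s)
  have hym := memLp_ev (dy 8 s)
  have i1 : Integrable (fun z => gx z ^ 2 + gy z ^ 2) (volume.restrict (ball (0 : ℂ) 1)) :=
    hv.gx_mem.integrable_sq.add hv.gy_mem.integrable_sq
  have i2 : Integrable (fun z => (ev (dx 8 s) z).re ^ 2 + (ev (dy 8 s) z).re ^ 2)
    (volume.restrict (ball (0 : ℂ) 1)) := hxm.integrable_sq.add hym.integrable_sq
  have i3 : Integrable (fun z => gx z * (ev (dx 8 s) z).re + gy z * (ev (dy 8 s) z).re)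
    (volume.restrict (ball (0 : ℂ) 1)) := (int_pair hv.gx_mem hxm).add (int_pair hv.gy_mem hym)
  have hCS := integral_dot_sq_le i1 i2 i3
  rw [hg] at hCS
  have hE : ∫ z in ball (0 : ℂ) 1, ((ev (dx 8 s) z).re ^ 2 + (ev (dy 8 s) z).re ^ 2) =
      π * (Dir 8 s s).re := by
    rw [← integral_gsq_re hsr]
    exact setIntegral_congr_fun measurableSet_ball fun z hz =>
      (gsq_ev s (mem_ball_zero_iff.1 hz)).symm
  have hIk := integral_k_sq_re hk.real hr
  have hen := energy_Sol_le hk hr hm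
  rw [← hs] at hen
  set G := ∫ z in ball (0 : ℂ) 1, (gx z ^ 2 + gy z ^ 2) with hG
  have hG0 : 0 ≤ G := integral_nonneg fun z => add_nonneg (sq_nonneg _) (sq_nonneg _)
  have hμ := mu1_pos hk
  rw [hIk]
  rw [hE] at hCS
  have hpi := Real.pi_pos
  calc mu1 k * (∫ z in ball (0 : ℂ) 1, (ev k z).re * v z * (ev ψ z).re) ^ 2
      ≤ mu1 k * (G * (π * (Dir 8 s s).re)) := mul_le_mul_of_nonneg_left hCS hμ.le
    _ = G * (π * (mu1 k * (Dir 8 s s).re)) := by ring
    _ ≤ G * (π * (I 8 (k * (ψ * ψ))).re) := by (clear * - hen hG0 hpi; gcongr)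

/-- Mean zero square integrable functions are limits of mean zero real series. -/
theorem exists_L2_mean {k : Y 8} (hk : IsW k) {v : ℂ → ℝ}
    (hv : MemLp v 2 (volume.restrict (ball (0 : ℂ) 1)))
    (hm : ∫ z in ball (0 : ℂ) 1, (ev k z).re * v z = 0) :
    ∃ s : ℕ → Y 8, (∀ n, cj (s n) = s n) ∧ (∀ n, I 8 (k * s n) = 0) ∧
      Tendsto (fun n => ∫ z in ball (0 : ℂ) 1, ((ev (s n) z).re - v z) ^ 2) atTop (𝓝 0) := by
  obtain ⟨a, ha, hT⟩ := exists_L2 (p := 8) hv
  have hM := hk.mass_pos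
  have hpi := Real.pi_pos
  set c : ℕ → ℝ := fun n => (I 8 (k * a n)).re / (I 8 k).re with hc
  have h1 := tendsto_pair hv (memLp_ev k) (fun n => memLp_ev (a n)) hT
  have hct : Tendsto c atTop (𝓝 0) := by
    rw [hm] at h1
    have h2 := h1.div_const (π * (I 8 k).re)
    rw [zero_div] at h2
    refine h2.congr fun n => ?_
    rw [integral_k_re hk.real (ha n), hc]
    field_simp
  refine ⟨fun n => a n - (c n : ℂ) • one1 8, fun n => ?_, fun n => ?_, ?_⟩
  · rw [cj_sub, ha n, cj_smul, cj_one1, Complex.conj_ofReal]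
  · have hka : cj (k * a n) = k * a n := by rw [cj_mul, hk.real, ha n]
    rw [ser_mul_sub, ser_mul_smul, mul_one1, map_sub, map_smul, smul_eq_mul, ← hk.mass_eq,
      ← I_real hka, ← Complex.ofReal_mul, ← Complex.ofReal_sub, hc, div_mul_cancel₀ _ hM.ne',
      sub_self, Complex.ofReal_zero]
  · have hT2 : Tendsto (fun n => 2 * (∫ z in ball (0 : ℂ) 1, ((ev (a n) z).re - v z) ^ 2) +
        2 * c n ^ 2 * (volume (ball (0 : ℂ) 1)).toReal) atTop (𝓝 0) := by
      have := (hT.const_mul 2).add (((hct.pow 2).const_mul 2).mul_const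
        (volume (ball (0 : ℂ) 1)).toReal)
      simpa using this
    refine squeeze_zero (fun n => integral_nonneg fun z => sq_nonneg _) (fun n => ?_) hT2
    have i1 : Integrable (fun z => ((ev (a n) z).re - v z) ^ 2) (volume.restrict (ball (0 : ℂ) 1)) :=
      ((memLp_ev (a n)).sub hv).integrable_sq
    have i2 : IntegrableOn (fun _ : ℂ => 2 * c n ^ 2) (ball (0 : ℂ) 1) :=
      integrableOn_const measure_ball_lt_top.ne
    have i3 : Integrable (fun z => ((ev (a n - (c n : ℂ) • one1 8) z).re - v z) ^ 2)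
        (volume.restrict (ball (0 : ℂ) 1)) := ((memLp_ev _).sub hv).integrable_sq
    calc ∫ z in ball (0 : ℂ) 1, ((ev (a n - (c n : ℂ) • one1 8) z).re - v z) ^ 2
        ≤ ∫ z in ball (0 : ℂ) 1, (2 * ((ev (a n) z).re - v z) ^ 2 + 2 * c n ^ 2) := by
          refine setIntegral_mono_on i3 ((i1.const_mul 2).add i2) measurableSet_ball ?_
          intro z hz
          have hz' := (mem_ball_zero_iff.1 hz).le
          rw [ev_sub _ _ hz', ev_smul, ev_one1, mul_one, Complex.sub_re, Complex.ofReal_re]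
          nlinarith only [sq_nonneg (((ev (a n) z).re - v z) + c n)]
      _ = _ := by
          rw [integral_add (i1.const_mul 2) i2, setIntegral_const, integral_const_mul]
          simp only [Measure.real, smul_eq_mul]
          ring

/-- **Poincaré inequality** with the sharp constant, for weak `H¹` functions. -/
theorem poinc_H1 {k : Y 8} (hk : IsW k) {v gx gy : ℂ → ℝ} (hv : IsH1 (ball 0 1) v gx gy)
    (hm : ∫ z in ball (0 : ℂ) 1, (ev k z).re * v z = 0) :
    mu1 k * (∫ z in ball (0 : ℂ) 1, (ev k z).re * v z ^ 2) ≤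
      ∫ z in ball (0 : ℂ) 1, (gx z ^ 2 + gy z ^ 2) := by
  obtain ⟨s, hs1, hs2, hT⟩ := exists_L2_mean hk hv.v_mem hm
  have T1 := tendsto_pair hv.v_mem (memLp_mul_ev k hv.v_mem) (fun n => memLp_ev (s n)) hT
  have T2 := tendsto_wsq k hv.v_mem (fun n => memLp_ev (s n)) hT
  have e0 : ∫ z in ball (0 : ℂ) 1, (ev k z).re * v z * v z =
      ∫ z in ball (0 : ℂ) 1, (ev k z).re * v z ^ 2 := by
    congr 1; funext z; ring
  rw [e0] at T1
  set X := ∫ z in ball (0 : ℂ) 1, (ev k z).re * v z ^ 2 with hX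
  set E := ∫ z in ball (0 : ℂ) 1, (gx z ^ 2 + gy z ^ 2) with hE
  have hfin : mu1 k * X ^ 2 ≤ E * X :=
    le_of_tendsto_of_tendsto' ((T1.pow 2).const_mul (mu1 k)) (T2.const_mul E)
      fun n => poinc_aux hk hv (hs1 n) (hs2 n)
  have hX0 : 0 ≤ X := by
    refine setIntegral_nonneg measurableSet_ball fun z hz => ?_
    exact mul_nonneg (hk.pos z (mem_ball_zero_iff.1 hz).le).le (sq_nonneg _)
  have hE0 : 0 ≤ E := integral_nonneg fun z => add_nonneg (sq_nonneg _) (sq_nonneg _)
  rcases hX0.eq_or_lt with h0 | h0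
  · rw [← h0, mul_zero]; exact hE0
  · have : X * (mu1 k * X) ≤ X * E := by linarith
    exact le_of_mul_le_mul_left this h0

/-- Series eigenfunctions satisfy the weak equation. -/
theorem weak_of_isEig {k e : Y 8} {μ : ℝ} (hk : IsW k) (he : IsEig k μ e) {v hx hy : ℂ → ℝ}
    (hv : IsH1 (ball 0 1) v hx hy) :
    ∫ z in ball (0 : ℂ) 1, ((px fun z => (ev e z).re) z * hx z + (py fun z => (ev e z).re) z * hy z) =
      μ * ∫ z in ball (0 : ℂ) 1, (ev k z).re * ((ev e z).re * v z) := by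
  have hV := G.isV_of_isEig he
  have hg := weak_green (p := 6) hv e (fun z hz => hV.neu z hz)
  have e1 : ∫ z in ball (0 : ℂ) 1, ((px fun z => (ev e z).re) z * hx z +
      (py fun z => (ev e z).re) z * hy z) =
      ∫ z in ball (0 : ℂ) 1, (hx z * (ev (dx 7 e) z).re + hy z * (ev (dy 7 e) z).re) := by
    refine setIntegral_congr_fun measurableSet_ball fun z hz => ?_
    rw [px_ev e (mem_ball_zero_iff.1 hz), py_ev e (mem_ball_zero_iff.1 hz)]
    ring
  rw [e1, hg, ← integral_neg, ← integral_const_mul]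
  refine setIntegral_congr_fun measurableSet_ball fun z hz => ?_
  have hz' := (mem_ball_zero_iff.1 hz).le
  have e2 : lap 6 e = -((μ : ℂ) • incl (show 6 ≤ 8 by norm_num) (k * e)) := by
    rw [hV.eqn, map_smul, ser_smul_mul, ← incl_mul]
  rw [e2, ev_neg, ev_smul, ev_incl, ev_mul _ _ hz', ← ev_real hk.real z, ← ev_real he.real z,
    ← Complex.ofReal_mul, ← Complex.ofReal_mul, ← Complex.ofReal_neg, Complex.ofReal_re,
    Complex.ofReal_re, Complex.ofReal_re]
  ring

end Vale.Agent.P071.H262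
end
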