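import Vale.Agent.P071.H262.Space
import Vale.Agent.P071.H969.Final

set_option linter.all false

/-!
# Assembly
-/

open scoped ComplexConjugate Topology Real ContDiff ENNReal
open Metric Filter MeasureTheory

noncomputable section

namespace Vale.Agent.P071.H262

open Vale.Agent.P071

variable {p : ℕ}

/-- Series weights are elements of `Y 8`. -/
theorem exists_series {κ : ℂ → ℝ} (h : SeriesWeight κ) :
    ∃ k : Y 8, cj k = k ∧ ∀ z : ℂ, ‖z‖ ≤ 1 → ev k z = (κ z : ℂ) := by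
  obtain ⟨c, hc, hs⟩ := h
  have hc' : Summable fun i => ‖c i‖ * wt 8 i := hc
  have hev : ∀ z : ℂ, ‖z‖ ≤ 1 → ev (mk c : Y 8) z = (κ z : ℂ) := by
    intro z hz
    have h1 : ev (mk c : Y 8) z = ∑' i, c i * mon i z := by
      unfold ev
      refine tsum_congr fun i => ?_
      rw [cf_mk hc']
    rw [h1]
    exact (hs z hz).tsum_eq
  refine ⟨mk c, Y.ext_ev fun z hz => ?_, hev⟩
  rw [ev_cj, hev z hz.le, Complex.conj_ofReal]

theorem lap_dzb (a : Y (p + 1 + 1)) (z : ℂ) :
    ev (lap p a) z = 4 * ev (dzb p (dz (p + 1) a)) z := by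
  rw [lap_apply, dz_dzb, ev_smul]

/-- The curvature condition for series. -/
theorem npc_of_curv {κ : ℂ → ℝ} {k : Y 8} (hr : cj k = k)
    (hκ : ∀ z : ℂ, ‖z‖ ≤ 1 → ev k z = (κ z : ℂ)) (h : NonposCurved κ) : NPC k := by
  intro z hz
  have hzD : z ∈ ball (0 : ℂ) 1 := mem_ball_zero_iff.2 hz
  have heq : κ =ᶠ[𝓝 z] fun y => (ev k y).re := by
    filter_upwards [isOpen_ball.mem_nhds hzD] with y hy
    rw [hκ y (mem_ball_zero_iff.1 hy).le, Complex.ofReal_re]
  have h1 := h z hzD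
  have e1 : px κ z = px (fun y => (ev k y).re) z := by
    unfold px; rw [heq.fderiv_eq]
  have e2 : py κ z = py (fun y => (ev k y).re) z := by
    unfold py; rw [heq.fderiv_eq]
  have hev2 : ∀ᶠ y in 𝓝 z, κ =ᶠ[𝓝 y] fun y => (ev k y).re := heq.eventuallyEq_nhds
  have e3 : px (px κ) z = px (px fun y => (ev k y).re) z := by
    have : px κ =ᶠ[𝓝 z] px fun y => (ev k y).re := by
      filter_upwards [hev2] with y hy
      unfold px; rw [hy.fderiv_eq]
    show fderiv ℝ (px κ) z 1 = fderiv ℝ (px fun y => (ev k y).re) z 1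
    rw [this.fderiv_eq]
  have e4 : py (py κ) z = py (py fun y => (ev k y).re) z := by
    have : py κ =ᶠ[𝓝 z] py fun y => (ev k y).re := by
      filter_upwards [hev2] with y hy
      unfold py; rw [hy.fderiv_eq]
    show fderiv ℝ (py κ) z Complex.I = fderiv ℝ (py fun y => (ev k y).re) z Complex.I
    rw [this.fderiv_eq]
  have e5 : κ z = (ev k z).re := by rw [hκ z hz.le, Complex.ofReal_re]
  have e6 : Lim.lap (fun y => (ev k y).re) z = 4 * (ev (dzb 6 (dz 7 k)) z).re := by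
    rw [lap_ev (p := 6) k hz, lap_dzb]
    simp
  have e7 : Lim.gsq (fun y => (ev k y).re) z = 4 * Complex.normSq (ev (dz 7 k) z) := by
    rw [gsq_ev (p := 7) k hz, dx_apply, dy_apply, ev_add _ _ hz.le, ev_smul, ev_sub _ _ hz.le]
    have h2 : ev (dzb 7 k) z = conj (ev (dz 7 k) z) := by
      rw [← ev_cj, cj_dz, hr]
    rw [h2, Complex.normSq_apply]
    simp
    ring
  have e8 : px (px fun y => (ev k y).re) z + py (py fun y => (ev k y).re) z =
      4 * (ev (dzb 6 (dz 7 k)) z).re := e6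
  have e9 : px (fun y => (ev k y).re) z ^ 2 + py (fun y => (ev k y).re) z ^ 2 =
      4 * Complex.normSq (ev (dz 7 k) z) := e7
  rw [e1, e2, e3, e4, e5, e8, e9] at h1
  unfold G.rv
  nlinarith only [h1]

/-- Extrema of a function without critical points in the disc. -/
theorem extrema {w : ℂ → ℝ} (hc : ContinuousOn w (closedBall 0 1))
    (hcr : ∀ x ∈ ball (0 : ℂ) 1, fderiv ℝ w x ≠ 0) :
    ∃ a ∈ sphere (0 : ℂ) 1, ∃ b ∈ sphere (0 : ℂ) 1,
      (∀ y ∈ sphere (0 : ℂ) 1, w a ≤ w y ∧ w y ≤ w b) ∧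
        ∀ x ∈ ball (0 : ℂ) 1, w a < w x ∧ w x < w b := by
  have hne : (closedBall (0 : ℂ) 1).Nonempty := ⟨0, by simp⟩
  obtain ⟨a, ha, hamin⟩ := (isCompact_closedBall (0 : ℂ) 1).exists_isMinOn hne hc
  obtain ⟨b, hb, hbmax⟩ := (isCompact_closedBall (0 : ℂ) 1).exists_isMaxOn hne hc
  rw [isMinOn_iff] at hamin
  rw [isMaxOn_iff] at hbmax
  have hmin : ∀ x ∈ ball (0 : ℂ) 1, w a < w x := by
    intro x hx
    refine lt_of_le_of_ne (hamin x (ball_subset_closedBall hx)) fun heq => ?_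
    apply hcr x hx
    apply IsLocalMin.fderiv_eq_zero
    filter_upwards [isOpen_ball.mem_nhds hx] with y hy
    rw [← heq]
    exact hamin y (ball_subset_closedBall hy)
  have hmax : ∀ x ∈ ball (0 : ℂ) 1, w x < w b := by
    intro x hx
    refine lt_of_le_of_ne (hbmax x (ball_subset_closedBall hx)) fun heq => ?_
    apply hcr x hx
    apply IsLocalMax.fderiv_eq_zero
    filter_upwards [isOpen_ball.mem_nhds hx] with y hy
    rw [heq]
    exact hbmax y (ball_subset_closedBall hy)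
  have hsph : ∀ x, x ∈ closedBall (0 : ℂ) 1 → x ∉ ball (0 : ℂ) 1 → x ∈ sphere (0 : ℂ) 1 := by
    intro x h1 h2
    rw [mem_closedBall_zero_iff] at h1
    rw [mem_ball_zero_iff, not_lt] at h2
    rw [mem_sphere_zero_iff_norm]
    exact le_antisymm h1 h2
  refine ⟨a, hsph a ha fun h => lt_irrefl _ (hmin a h), b, hsph b hb fun h => lt_irrefl _ (hmax b h),
    fun y hy => ⟨hamin y (sphere_subset_closedBall hy), hbmax y (sphere_subset_closedBall hy)⟩,
    fun x hx => ⟨hmin x hx, hmax x hx⟩⟩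

theorem fderiv_ev_eq_zero {a : Y (p + 1)} (ha : cj a = a) {z : ℂ} (hz : ‖z‖ < 1)
    (h : fderiv ℝ (fun y => (ev a y).re) z = 0) : ev (dz p a) z = 0 := by
  have h1 : Lim.gsq (fun y => (ev a y).re) z = 0 := by
    unfold Lim.gsq px py
    rw [h]
    simp
  have e7 : Lim.gsq (fun y => (ev a y).re) z = 4 * Complex.normSq (ev (dz p a) z) := by
    rw [gsq_ev a hz, dx_apply, dy_apply, ev_add _ _ hz.le, ev_smul, ev_sub _ _ hz.le]
    have h2 : ev (dzb p a) z = conj (ev (dz p a) z) := by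
      rw [← ev_cj, cj_dz, ha]
    rw [h2, Complex.normSq_apply]
    simp
    ring
  rw [h1] at e7
  have : Complex.normSq (ev (dz p a) z) = 0 := by linarith only [e7]
  exact Complex.normSq_eq_zero.1 this

/-- **Hot spots on nonpositively curved discs.** -/
theorem main {κ : ℂ → ℝ} (hs : SeriesWeight κ) (hp : ∀ z : ℂ, ‖z‖ ≤ 1 → 0 < κ z)
    (hK : NonposCurved κ) :
    (∃ u : ℂ → ℝ, InVD κ u ∧ ¬ ∀ᵐ z ∂(volume.restrict (ball (0 : ℂ) 1)), u z = 0) ∧
    ∀ u : ℂ → ℝ, InVD κ u → (¬ ∀ᵐ z ∂(volume.restrict (ball (0 : ℂ) 1)), u z = 0) →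
    ∃ w : ℂ → ℝ, (∀ᵐ z ∂(volume.restrict (ball (0 : ℂ) 1)), w z = u z) ∧ InVD κ w ∧
      ContDiffOn ℝ 8 w (closedBall 0 1) ∧ (∀ x ∈ ball (0 : ℂ) 1, fderiv ℝ w x ≠ 0) ∧
      (∃ a ∈ sphere (0 : ℂ) 1, ∃ b ∈ sphere (0 : ℂ) 1,
        (∀ y ∈ sphere (0 : ℂ) 1, w a ≤ w y ∧ w y ≤ w b) ∧
          ∀ x ∈ ball (0 : ℂ) 1, w a < w x ∧ w x < w b) ∧
      ∀ v : ℂ → ℝ, InVD κ v → ContinuousOn v (ball 0 1) →
        (∃ x ∈ ball (0 : ℂ) 1, px w x * py v x = py w x * px v x) →
        ∃ c : ℝ, ∀ z ∈ ball (0 : ℂ) 1, v z = c * w z := by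
  obtain ⟨k, hr, hev⟩ := exists_series hs
  have hk : IsW k := ⟨hr, fun z hz => by rw [hev z hz, Complex.ofReal_re]; exact hp z hz⟩
  have hκ : ∀ z ∈ ball (0 : ℂ) 1, κ z = (ev k z).re := fun z hz => by
    rw [hev z (mem_ball_zero_iff.1 hz).le, Complex.ofReal_re]
  obtain ⟨hA, hG⟩ := good_of_npc hk (npc_of_curv hr hev hK)
  have hne : ∀ e : Y 8, IsEig k (mu1 k) e → e ≠ 0 → ∀ z : ℂ, ‖z‖ < 1 → ev (dz 7 e) z ≠ 0 :=
    fun e he h0 z hz => dz_ne hA hG (G.isV_of_isEig he) h0 hz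
  have hinj : ∀ e, IsEig k (mu1 k) e → ev (dz 7 e) 0 = 0 → e = 0 := by
    intro e he h0
    by_contra h
    exact hne e he h 0 (by simp) h0
  have hcont : ∀ e : Y 8, ContinuousOn (fun z => (ev e z).re) (ball (0 : ℂ) 1) := fun e =>
    (continuousOn_ev_re e).mono ball_subset_closedBall
  constructor
  · obtain ⟨e, he0, he⟩ := exists_isEig hk
    refine ⟨_, inVD_of_isEig hk hκ he, fun hae => ?_⟩
    have h1 : 0 < π * WB k e e := mul_pos Real.pi_pos ((isWeakInner_WB hk).pos e he0)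
    rw [← WB_int hk.real he.real he.real] at h1
    have h2 : ∫ z in ball (0 : ℂ) 1, (ev k z).re * ((ev e z).re * (ev e z).re) = 0 := by
      rw [integral_eq_zero_of_ae]
      filter_upwards [hae] with z hz
      rw [hz]
      simp
    rw [h2] at h1
    exact lt_irrefl _ h1
  intro u hu hu0
  obtain ⟨e, he, hue⟩ := exists_eig_of_inVD hk hκ hinj hu
  have he0 : e ≠ 0 := by
    rintro rfl
    apply hu0
    filter_upwards [hue] with z hz
    rw [hz]
    simp [ev]
  have hcr : ∀ x ∈ ball (0 : ℂ) 1, fderiv ℝ (fun z => (ev e z).re) x ≠ 0 := by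
    intro x hx h
    have hx' := mem_ball_zero_iff.1 hx
    exact hne e he he0 x hx' (fderiv_ev_eq_zero (p := 7) he.real hx' h)
  refine ⟨fun z => (ev e z).re, ?_, inVD_of_isEig hk hκ he, contDiffOn_ev_re e (n := 8) le_rfl, hcr,
    extrema (continuousOn_ev_re e) hcr, ?_⟩
  · filter_upwards [hue] with z hz using hz.symm
  · rintro v hv hvc ⟨x, hx, hdet⟩
    have hx' := mem_ball_zero_iff.1 hx
    obtain ⟨e', he', hve⟩ := exists_eig_of_inVD hk hκ hinj hv
    -- equality everywhere in the disc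
    have hveq : ∀ z ∈ ball (0 : ℂ) 1, v z = (ev e' z).re := by
      have := Measure.eqOn_open_of_ae_eq (μ := (volume : Measure ℂ)) hve isOpen_ball hvc (hcont e')
      exact this
    have heq : v =ᶠ[𝓝 x] fun y => (ev e' y).re := by
      filter_upwards [isOpen_ball.mem_nhds hx] with y hy using hveq y hy
    have d1 : px v x = (ev (dx 7 e') x).re := by
      rw [← px_ev (p := 7) e' hx']; unfold px; rw [heq.fderiv_eq]
    have d2 : py v x = (ev (dy 7 e') x).re := by
      rw [← py_ev (p := 7) e' hx']; unfold py; rw [heq.fderiv_eq]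
    rw [px_ev (p := 7) e hx', py_ev (p := 7) e hx', d1, d2] at hdet
    set A := (ev (dx 7 e) x).re with hA'
    set B := (ev (dy 7 e) x).re with hB'
    set A' := (ev (dx 7 e') x).re with hA''
    set B' := (ev (dy 7 e') x).re with hB''
    -- the gradient of `e` at `x` is not zero
    have hAB : A ^ 2 + B ^ 2 ≠ 0 := by
      intro h0
      apply hcr x hx
      have hA0 : A = 0 := by nlinarith only [h0, sq_nonneg A, sq_nonneg B]
      have hB0 : B = 0 := by nlinarith only [h0, sq_nonneg A, sq_nonneg B]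
      rw [(hasFDerivAt_ev_re (p := 7) e hx').fderiv]
      ext w
      rw [ContinuousLinearMap.comp_apply, evD_apply_real _ hx'.le, Complex.reCLM_apply]
      rw [Complex.add_re, Complex.re_ofReal_mul, Complex.re_ofReal_mul, ← hA', ← hB', hA0, hB0]
      simp
    set c : ℝ := (A * A' + B * B') / (A ^ 2 + B ^ 2) with hc
    have c1 : A' - c * A = 0 := by
      rw [hc]; field_simp; linear_combination (-B) * hdet
    have c2 : B' - c * B = 0 := by
      rw [hc]; field_simp; linear_combination A * hdet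
    have hE : IsEig k (mu1 k) (e' - (c : ℂ) • e) := he'.sub (he.smul c)
    have hz : e' - (c : ℂ) • e = 0 := by
      by_contra h
      apply hne _ hE h x hx'
      apply fderiv_ev_eq_zero (p := 7) hE.real hx'
      rw [(hasFDerivAt_ev_re (p := 7) _ hx').fderiv]
      have hx1 : (ev (dx 7 (e' - (c : ℂ) • e)) x).re = 0 := by
        rw [map_sub, map_smul, ev_sub _ _ hx'.le, ev_smul, Complex.sub_re, Complex.re_ofReal_mul]
        exact c1
      have hy1 : (ev (dy 7 (e' - (c : ℂ) • e)) x).re = 0 := by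
        rw [map_sub, map_smul, ev_sub _ _ hx'.le, ev_smul, Complex.sub_re, Complex.re_ofReal_mul]
        exact c2
      ext w
      rw [ContinuousLinearMap.comp_apply, evD_apply_real _ hx'.le, Complex.reCLM_apply]
      rw [Complex.add_re, Complex.re_ofReal_mul, Complex.re_ofReal_mul, hx1, hy1]
      simp
    refine ⟨c, fun z hz' => ?_⟩
    rw [hveq z hz']
    have h1 : e' = (c : ℂ) • e := sub_eq_zero.1 hz
    rw [h1, ev_smul, Complex.re_ofReal_mul]

end Vale.Agent.P071.H262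
end
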