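import Vale.Agent.P071.H969.Disc
import Vale.Agent.P071.H969.Main

set_option linter.all false

/-!
# Green's identity for weak `H¹` functions and series with zero normal derivative
-/

open scoped ComplexConjugate Topology Real ContDiff ENNReal
open Metric Filter MeasureTheory

noncomputable section

namespace Vale.Agent.P071.H262

open Vale.Agent.P071

variable {p : ℕ}

/-- Series are smooth in the open disc. -/
theorem contDiffOn_ev_top (a : Y p) : ContDiffOn ℝ ∞ (fun z => (ev a z).re) (ball 0 1) := by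
  rw [contDiffOn_infty]
  intro n z hz
  have hz' := mem_ball_zero_iff.1 hz
  obtain ⟨r, hr1, hr2⟩ := exists_between hz'
  have hr0 : 0 < r := (norm_nonneg z).trans_lt hr1
  have h : ContDiffOn ℝ n (ev (dil p n r hr0.le hr2 a)) (closedBall 0 1) := contDiffOn_ev n _
  have e : (fun y => (ev a y).re) = fun y => (ev (dil p n r hr0.le hr2 a) (((r⁻¹ : ℝ) : ℂ) * y)).re := by
    funext y
    rw [ev_dil]
    congr 2
    rw [← mul_assoc, ← Complex.ofReal_mul, mul_inv_cancel₀ hr0.ne', Complex.ofReal_one, one_mul]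
  rw [e]
  have hin : ((r⁻¹ : ℝ) : ℂ) * z ∈ ball (0 : ℂ) 1 := by
    rw [mem_ball_zero_iff, norm_mul, Complex.norm_real, Real.norm_of_nonneg (by positivity),
      inv_mul_lt_iff₀ hr0, mul_one]
    exact hr1
  have h1 : ContDiffAt ℝ n (ev (dil p n r hr0.le hr2 a)) (((r⁻¹ : ℝ) : ℂ) * z) :=
    h.contDiffAt (mem_of_superset (isOpen_ball.mem_nhds hin) ball_subset_closedBall)
  have h2 : ContDiffAt ℝ n (fun y : ℂ => ((r⁻¹ : ℝ) : ℂ) * y) z := contDiffAt_const.mul contDiffAt_id
  exact (Complex.reCLM.contDiff.contDiffAt.comp z (h1.comp z h2)).contDiffWithinAt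

/-- Cutoffs. -/
def ct (n : ℕ) (z : ℂ) : ℝ := Real.smoothTransition (((n : ℝ) + 1) * (1 - ‖z‖ ^ 2) - 1)

theorem ct_arg_contDiff (n : ℕ) :
    ContDiff ℝ ∞ (fun z : ℂ => ((n : ℝ) + 1) * (1 - ‖z‖ ^ 2) - 1) :=
  (contDiff_const.mul (contDiff_const.sub (contDiff_norm_sq ℝ))).sub contDiff_const

theorem ct_contDiff (n : ℕ) : ContDiff ℝ ∞ (ct n) :=
  Real.smoothTransition.contDiff.comp (ct_arg_contDiff n)

theorem ct_nonneg (n : ℕ) (z : ℂ) : 0 ≤ ct n z := Real.smoothTransition.nonneg _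
theorem ct_le_one (n : ℕ) (z : ℂ) : ct n z ≤ 1 := Real.smoothTransition.le_one _

theorem ct_tsupport (n : ℕ) : tsupport (ct n) ⊆ closedBall 0 (Real.sqrt (1 - 1 / ((n : ℝ) + 1))) := by
  refine closure_minimal ?_ isClosed_closedBall
  intro z hz
  rw [Function.mem_support] at hz
  have h1 : 0 < ((n : ℝ) + 1) * (1 - ‖z‖ ^ 2) - 1 := by
    by_contra h
    exact hz (Real.smoothTransition.zero_of_nonpos (not_lt.1 h))
  have hn : (0 : ℝ) < (n : ℝ) + 1 := by positivity
  rw [mem_closedBall_zero_iff]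
  apply Real.le_sqrt_of_sq_le
  have h2 : 1 / ((n : ℝ) + 1) < 1 - ‖z‖ ^ 2 := by
    rw [div_lt_iff₀ hn]
    nlinarith only [h1]
  linarith only [h2]

theorem ct_compact (n : ℕ) : HasCompactSupport (ct n) :=
  (isCompact_closedBall _ _).of_isClosed_subset (isClosed_tsupport _) (ct_tsupport n)

theorem ct_sub (n : ℕ) : tsupport (ct n) ⊆ ball (0 : ℂ) 1 := by
  refine (ct_tsupport n).trans (closedBall_subset_ball ?_)
  rw [Real.sqrt_lt' one_pos]
  have : 0 < 1 / ((n : ℝ) + 1) := by positivity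
  linarith only [this]

/-- The derivative of the transition is bounded, and vanishes for arguments `≥ 1`. -/
theorem st_deriv : ∃ C : ℝ, 0 ≤ C ∧ ∀ t, |deriv Real.smoothTransition t| ≤ C ∧
    (1 < t → deriv Real.smoothTransition t = 0) := by
  have hc : Continuous (deriv Real.smoothTransition) :=
    (Real.smoothTransition.contDiff (n := 1)).continuous_deriv le_rfl
  obtain ⟨C, hC⟩ := (isCompact_Icc (a := (0 : ℝ)) (b := 1)).exists_bound_of_continuousOn
    hc.continuousOn
  have h1 : ∀ t : ℝ, 1 < t → deriv Real.smoothTransition t = 0 := by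
    intro t ht
    have : Real.smoothTransition =ᶠ[𝓝 t] fun _ => 1 := by
      filter_upwards [lt_mem_nhds ht] with y hy
      exact Real.smoothTransition.one_of_one_le hy.le
    rw [this.deriv_eq]; simp
  have h0 : ∀ t : ℝ, t < 0 → deriv Real.smoothTransition t = 0 := by
    intro t ht
    have : Real.smoothTransition =ᶠ[𝓝 t] fun _ => 0 := by
      filter_upwards [gt_mem_nhds ht] with y hy
      exact Real.smoothTransition.zero_of_nonpos hy.le
    rw [this.deriv_eq]; simp
  refine ⟨max C 0, le_max_right _ _, fun t => ⟨?_, h1 t⟩⟩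
  rcases lt_or_ge t 0 with h | h
  · rw [h0 t h, abs_zero]; exact le_max_right _ _
  rcases lt_or_ge 1 t with h' | h'
  · rw [h1 t h', abs_zero]; exact le_max_right _ _
  · exact (hC t ⟨h, h'⟩).trans (le_max_left _ _)

theorem fderiv_ct (n : ℕ) (z e : ℂ) : fderiv ℝ (ct n) z e =
    deriv Real.smoothTransition (((n : ℝ) + 1) * (1 - ‖z‖ ^ 2) - 1) *
      (((n : ℝ) + 1) * (-2 * (z.re * e.re + z.im * e.im))) := by
  have h1 : HasFDerivAt (fun z : ℂ => ‖z‖ ^ 2) (2 • (innerSL ℝ z)) z := by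
    exact (hasStrictFDerivAt_norm_sq z).hasFDerivAt
  have h2 := ((h1.const_sub 1).const_mul ((n : ℝ) + 1)).sub_const 1
  have h3 : HasDerivAt Real.smoothTransition
      (deriv Real.smoothTransition (((n : ℝ) + 1) * (1 - ‖z‖ ^ 2) - 1))
      (((n : ℝ) + 1) * (1 - ‖z‖ ^ 2) - 1) :=
    ((Real.smoothTransition.contDiff (n := 1)).differentiable (by norm_num) _).hasDerivAt
  have h4 := h3.comp_hasFDerivAt z h2
  have e1 : fderiv ℝ (ct n) z = _ := h4.fderiv
  have e2 : (innerSL ℝ z) e = z.re * e.re + z.im * e.im := by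
    rw [innerSL_apply_apply, Complex.inner]
    simp
    ring
  rw [e1]
  show deriv Real.smoothTransition (((n : ℝ) + 1) * (1 - ‖z‖ ^ 2) - 1) *
    (((n : ℝ) + 1) * -(2 • (innerSL ℝ z) e)) = _
  rw [e2, nsmul_eq_mul]
  push_cast
  ring

theorem norm_evD_le (a : Y (p + 1)) {z : ℂ} (hz : ‖z‖ ≤ 1) : ‖evD a z‖ ≤ ‖dz p a‖ + ‖dzb p a‖ := by
  refine ContinuousLinearMap.opNorm_le_bound _ (by positivity) fun w => ?_
  rw [evD_apply]
  calc ‖ev (dz p a) z * w + ev (dzb p a) z * conj w‖
      ≤ ‖ev (dz p a) z * w‖ + ‖ev (dzb p a) z * conj w‖ := norm_add_le _ _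
    _ ≤ ‖dz p a‖ * ‖w‖ + ‖dzb p a‖ * ‖w‖ := by
        rw [norm_mul, norm_mul, RCLike.norm_conj]
        gcongr
        · exact norm_ev_le _ hz
        · exact norm_ev_le _ hz
    _ = _ := by ring

theorem lip_ev (a : Y (p + 1)) {z w : ℂ} (hz : ‖z‖ ≤ 1) (hw : ‖w‖ ≤ 1) :
    ‖ev a z - ev a w‖ ≤ (‖dz p a‖ + ‖dzb p a‖) * ‖z - w‖ :=
  (convex_closedBall (0 : ℂ) 1).norm_image_sub_le_of_norm_hasFDerivWithin_le
    (fun y hy => hasFDerivWithinAt_ev a (mem_closedBall_zero_iff.1 hy))
    (fun y hy => norm_evD_le a (mem_closedBall_zero_iff.1 hy))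
    (mem_closedBall_zero_iff.2 hw) (mem_closedBall_zero_iff.2 hz)

theorem rad_bound (R : Y (p + 1)) (h0 : ∀ z, ‖z‖ = 1 → ev R z = 0) {z : ℂ} (hz : ‖z‖ < 1) :
    ‖ev R z‖ ≤ (‖dz p R‖ + ‖dzb p R‖) * (1 - ‖z‖) := by
  obtain ⟨y, hy, hyz⟩ : ∃ y : ℂ, ‖y‖ = 1 ∧ ‖z - y‖ = 1 - ‖z‖ := by
    by_cases h : z = 0
    · exact ⟨1, by simp, by simp [h]⟩
    · have hn : 0 < ‖z‖ := norm_pos_iff.2 h
      have hnc : (‖z‖ : ℂ) ≠ 0 := by exact_mod_cast hn.ne'
      refine ⟨z / ‖z‖, ?_, ?_⟩
      · rw [norm_div, Complex.norm_real, norm_norm, div_self hn.ne']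
      · have e : z - z / ‖z‖ = ((‖z‖ - 1 : ℝ) : ℂ) * (z / ‖z‖) := by
          push_cast
          field_simp
        rw [e, norm_mul, norm_div, Complex.norm_real, Complex.norm_real, norm_norm,
          div_self hn.ne', mul_one, Real.norm_eq_abs, abs_of_neg (by linarith only [hz])]
        ring
  have := lip_ev R hz.le hy.le
  rwa [h0 y hy, sub_zero, hyz] at this

theorem Rad_re (φ : Y (p + 1)) {z : ℂ} (hz : ‖z‖ ≤ 1) : (ev (Rad p φ) z).re =
    z.re * (ev (dx p φ) z).re + z.im * (ev (dy p φ) z).re := by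
  have h1 := evD_apply_real φ hz z
  rw [evD_apply] at h1
  have h2 : ev (Rad p φ) z = z.re * ev (dx p φ) z + z.im * ev (dy p φ) z := by
    rw [ev_Rad φ hz, ← h1]
    ring
  rw [h2]
  simp

/-- **Green's identity** for weak `H¹` functions and series with zero normal derivative. -/
theorem weak_green {v gx gy : ℂ → ℝ} (hv : IsH1 (ball 0 1) v gx gy) (φ : Y (p + 1 + 1))
    (hR : ∀ z, ‖z‖ = 1 → ev (Rad (p + 1) φ) z = 0) :
    ∫ z in ball (0 : ℂ) 1, (gx z * (ev (dx (p + 1) φ) z).re + gy z * (ev (dy (p + 1) φ) z).re) =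
      -∫ z in ball (0 : ℂ) 1, v z * (ev (lap p φ) z).re := by
  set fx : ℂ → ℝ := fun z => (ev (dx (p + 1) φ) z).re with hfx
  set fy : ℂ → ℝ := fun z => (ev (dy (p + 1) φ) z).re with hfy
  have sx : ContDiffOn ℝ ∞ fx (ball 0 1) := contDiffOn_ev_top _
  have sy : ContDiffOn ℝ ∞ fy (ball 0 1) := contDiffOn_ev_top _
  have hsm : ∀ (g : ℂ → ℝ), ContDiffOn ℝ ∞ g (ball 0 1) → ∀ n,
      ContDiff ℝ ∞ (fun z => ct n z * g z) := by
    intro g hg n
    rw [contDiff_iff_contDiffAt]
    intro z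
    by_cases hz : z ∈ tsupport (fun z => ct n z * g z)
    · have hz1 : z ∈ ball (0 : ℂ) 1 := ct_sub n (tsupport_mul_subset_left hz)
      exact (ct_contDiff n).contDiffAt.mul (hg.contDiffAt (isOpen_ball.mem_nhds hz1))
    · exact (contDiffAt_const (c := (0 : ℝ))).congr_of_eventuallyEq
        (notMem_tsupport_iff_eventuallyEq.1 hz)
  have hcs : ∀ (g : ℂ → ℝ) (n : ℕ), HasCompactSupport (fun z => ct n z * g z) := fun g n =>
    (ct_compact n).mul_right
  have hts : ∀ (g : ℂ → ℝ) (n : ℕ), tsupport (fun z => ct n z * g z) ⊆ ball (0 : ℂ) 1 :=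
    fun g n => tsupport_mul_subset_left.trans (ct_sub n)
  set R : Y (p + 1) := Rad (p + 1) φ with hRd
  set st : ℕ → ℂ → ℝ := fun n z =>
    deriv Real.smoothTransition (((n : ℝ) + 1) * (1 - ‖z‖ ^ 2) - 1) with hst
  have hd : ∀ n, ∀ z ∈ ball (0 : ℂ) 1, px (fun z => ct n z * fx z) z + py (fun z => ct n z * fy z) z =
      ct n z * (ev (lap p φ) z).re + st n z * (((n : ℝ) + 1) * (-2 * (ev R z).re)) := by
    intro n z hz
    have hz' := mem_ball_zero_iff.1 hz
    have hc1 : DifferentiableAt ℝ (ct n) z := (ct_contDiff n).differentiable (by simp) z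
    have dfx : DifferentiableAt ℝ fx z :=
      ((sx.contDiffAt (isOpen_ball.mem_nhds hz)).differentiableAt (by simp))
    have dfy : DifferentiableAt ℝ fy z :=
      ((sy.contDiffAt (isOpen_ball.mem_nhds hz)).differentiableAt (by simp))
    have e1 : px fx z = (ev (dx p (dx (p + 1) φ)) z).re := px_ev (dx (p + 1) φ) hz'
    have e2 : py fy z = (ev (dy p (dy (p + 1) φ)) z).re := py_ev (dy (p + 1) φ) hz'
    have e3 : px (fun z => ct n z * fx z) z = ct n z * px fx z + fx z * px (ct n) z := by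
      unfold px
      rw [fderiv_fun_mul hc1 dfx]
      simp
    have e4 : py (fun z => ct n z * fy z) z = ct n z * py fy z + fy z * py (ct n) z := by
      unfold py
      rw [fderiv_fun_mul hc1 dfy]
      simp
    have e5 : px (ct n) z = st n z * (((n : ℝ) + 1) * (-2 * z.re)) := by
      unfold px
      rw [fderiv_ct]
      simp [hst]
    have e6 : py (ct n) z = st n z * (((n : ℝ) + 1) * (-2 * z.im)) := by
      unfold py
      rw [fderiv_ct]
      simp [hst]
    rw [e3, e4, e5, e6, e1, e2, lap_eq, ev_add _ _ hz'.le, Complex.add_re, hRd, Rad_re φ hz'.le]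
    simp only [hfx, hfy]
    ring
  -- the identity with cutoffs
  have hid : ∀ n, ∫ z in ball (0 : ℂ) 1, v z * (px (fun z => ct n z * fx z) z +
      py (fun z => ct n z * fy z) z) =
      -∫ z in ball (0 : ℂ) 1, (gx z * (ct n z * fx z) + gy z * (ct n z * fy z)) := by
    intro n
    have hint : ∀ {g ψ : ℂ → ℝ}, MemLp g 2 (volume.restrict (ball (0 : ℂ) 1)) → Continuous ψ →
        HasCompactSupport ψ → IntegrableOn (fun z => g z * ψ z) (ball (0 : ℂ) 1) := by
      intro g ψ hg hψ hc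
      have h1 : MemLp ψ 2 (volume.restrict (ball (0 : ℂ) 1)) :=
        (hψ.memLp_of_hasCompactSupport hc).restrict _
      exact hg.integrable_mul h1
    have c1 := hsm fx sx n
    have c2 := hsm fy sy n
    have k1 := hcs fx n
    have k2 := hcs fy n
    have w1 := hv.weak_x _ c1 k1 (hts fx n)
    have w2 := hv.weak_y _ c2 k2 (hts fy n)
    have i1 := hint hv.v_mem (Lim.RegA.px_contDiff c1).continuous (Lim.RegA.px_cs k1)
    have i2 := hint hv.v_mem (Lim.RegA.py_contDiff c2).continuous (Lim.RegA.py_cs k2)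
    have i3 := hint hv.gx_mem c1.continuous k1
    have i4 := hint hv.gy_mem c2.continuous k2
    rw [integral_add i3 i4]
    have e1 : ∫ z in ball (0 : ℂ) 1, v z * (px (fun z => ct n z * fx z) z +
        py (fun z => ct n z * fy z) z) = (∫ z in ball (0 : ℂ) 1, v z * px (fun z => ct n z * fx z) z) +
        ∫ z in ball (0 : ℂ) 1, v z * py (fun z => ct n z * fy z) z := by
      rw [← integral_add i1 i2]
      congr 1
      funext z
      ring
    rw [e1, w1, w2]
    ring
  obtain ⟨C, hC0, hC⟩ := st_deriv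
  set K : ℝ := ‖dz p R‖ + ‖dzb p R‖ with hK
  have hK0 : 0 ≤ K := by positivity
  -- bounds
  have hq : ∀ n, ∀ z ∈ ball (0 : ℂ) 1,
      |st n z * (((n : ℝ) + 1) * (-2 * (ev R z).re))| ≤ 4 * C * K := by
    intro n z hz
    have hz' := mem_ball_zero_iff.1 hz
    by_cases ht : 1 < ((n : ℝ) + 1) * (1 - ‖z‖ ^ 2) - 1
    · have : st n z = 0 := (hC _).2 ht
      rw [this, zero_mul, abs_zero]
      positivity
    · push Not at ht
      have h1 : |(ev R z).re| ≤ K * (1 - ‖z‖) :=
        (Complex.abs_re_le_norm _).trans (rad_bound R hR hz')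
      have h2 : |st n z| ≤ C := (hC _).1
      have hn : (0 : ℝ) < (n : ℝ) + 1 := by positivity
      have h3 : ((n : ℝ) + 1) * (1 - ‖z‖) ≤ 2 := by
        have h4 : 0 ≤ ((n : ℝ) + 1) * (1 - ‖z‖) * ‖z‖ := by
          have : 0 ≤ 1 - ‖z‖ := by linarith only [hz']
          positivity
        nlinarith only [ht, h4]
      rw [abs_mul, abs_mul, abs_mul, abs_of_pos hn]
      calc |st n z| * (((n : ℝ) + 1) * (|(-2 : ℝ)| * |(ev R z).re|))
          ≤ C * (((n : ℝ) + 1) * (2 * (K * (1 - ‖z‖)))) := by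
            have : |(-2 : ℝ)| = 2 := by norm_num
            rw [this]
            gcongr
        _ = (2 * C * K) * (((n : ℝ) + 1) * (1 - ‖z‖)) := by ring
        _ ≤ (2 * C * K) * 2 := by gcongr
        _ = 4 * C * K := by ring
  have hev : ∀ z ∈ ball (0 : ℂ) 1, ∀ᶠ n : ℕ in atTop,
      2 < ((n : ℝ) + 1) * (1 - ‖z‖ ^ 2) := by
    intro z hz
    have hz' := mem_ball_zero_iff.1 hz
    have h1 : 0 < 1 - ‖z‖ ^ 2 := by nlinarith only [hz', norm_nonneg z]
    have h2 : Tendsto (fun n : ℕ => ((n : ℝ) + 1) * (1 - ‖z‖ ^ 2)) atTop atTop :=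
      (tendsto_natCast_atTop_atTop.atTop_add tendsto_const_nhds).atTop_mul_const h1
    exact h2.eventually_gt_atTop 2
  have hct : ∀ z ∈ ball (0 : ℂ) 1, ∀ᶠ n : ℕ in atTop, ct n z = 1 := by
    intro z hz
    filter_upwards [hev z hz] with n hn
    exact Real.smoothTransition.one_of_one_le (by linarith only [hn])
  have hst0 : ∀ z ∈ ball (0 : ℂ) 1, ∀ᶠ n : ℕ in atTop, st n z = 0 := by
    intro z hz
    filter_upwards [hev z hz] with n hn
    exact (hC _).2 (by linarith only [hn])
  have : IsFiniteMeasure (volume.restrict (ball (0 : ℂ) 1)) :=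
    ⟨by simpa using measure_ball_lt_top⟩
  have iv : Integrable v (volume.restrict (ball (0 : ℂ) 1)) := hv.v_mem.integrable (by norm_num)
  have ix : Integrable gx (volume.restrict (ball (0 : ℂ) 1)) := hv.gx_mem.integrable (by norm_num)
  have iy : Integrable gy (volume.restrict (ball (0 : ℂ) 1)) := hv.gy_mem.integrable (by norm_num)
  have hct1 : ∀ n z, |ct n z| ≤ 1 := fun n z => by
    rw [abs_of_nonneg (ct_nonneg n z)]; exact ct_le_one n z
  have TL : Tendsto (fun n => ∫ z in ball (0 : ℂ) 1, v z * (px (fun z => ct n z * fx z) z +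
      py (fun z => ct n z * fy z) z)) atTop
      (𝓝 (∫ z in ball (0 : ℂ) 1, v z * (ev (lap p φ) z).re)) := by
    refine tendsto_integral_of_dominated_convergence (fun z => |v z| * (‖lap p φ‖ + 4 * C * K))
      (fun n => ?_) (iv.abs.mul_const _) (fun n => ?_) ?_
    · exact iv.1.mul (((Lim.RegA.px_contDiff (hsm fx sx n)).continuous.add
        (Lim.RegA.py_contDiff (hsm fy sy n)).continuous).aestronglyMeasurable)
    · filter_upwards [ae_restrict_mem measurableSet_ball] with z hz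
      rw [hd n z hz, Real.norm_eq_abs, abs_mul]
      refine mul_le_mul_of_nonneg_left ?_ (abs_nonneg _)
      refine (abs_add_le _ _).trans (add_le_add ?_ (hq n z hz))
      rw [abs_mul]
      calc |ct n z| * |(ev (lap p φ) z).re| ≤ 1 * ‖lap p φ‖ :=
            mul_le_mul (hct1 n z) ((Complex.abs_re_le_norm _).trans
              (norm_ev_le _ (mem_ball_zero_iff.1 hz).le)) (abs_nonneg _) zero_le_one
        _ = _ := one_mul _
    · filter_upwards [ae_restrict_mem measurableSet_ball] with z hz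
      refine tendsto_const_nhds.congr' ?_
      filter_upwards [hct z hz, hst0 z hz] with n h1 h2
      rw [hd n z hz, h1, h2]
      ring
  have TR : Tendsto (fun n => -∫ z in ball (0 : ℂ) 1, (gx z * (ct n z * fx z) +
      gy z * (ct n z * fy z))) atTop
      (𝓝 (-∫ z in ball (0 : ℂ) 1, (gx z * fx z + gy z * fy z))) := by
    refine Tendsto.neg (tendsto_integral_of_dominated_convergence
      (fun z => |gx z| * ‖dx (p + 1) φ‖ + |gy z| * ‖dy (p + 1) φ‖)
      (fun n => ?_) ((ix.abs.mul_const _).add (iy.abs.mul_const _)) (fun n => ?_) ?_)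
    · exact (ix.1.mul (hsm fx sx n).continuous.aestronglyMeasurable).add
        (iy.1.mul (hsm fy sy n).continuous.aestronglyMeasurable)
    · filter_upwards [ae_restrict_mem measurableSet_ball] with z hz
      have hz' := (mem_ball_zero_iff.1 hz).le
      have b : ∀ (a : Y (p + 1)), |ct n z * (ev a z).re| ≤ ‖a‖ := by
        intro a
        rw [abs_mul]
        calc |ct n z| * |(ev a z).re| ≤ 1 * ‖a‖ :=
              mul_le_mul (hct1 n z) ((Complex.abs_re_le_norm _).trans (norm_ev_le _ hz'))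
                (abs_nonneg _) zero_le_one
          _ = _ := one_mul _
      rw [Real.norm_eq_abs]
      refine (abs_add_le _ _).trans (add_le_add ?_ ?_)
      · rw [abs_mul]
        exact mul_le_mul_of_nonneg_left (b _) (abs_nonneg _)
      · rw [abs_mul]
        exact mul_le_mul_of_nonneg_left (b _) (abs_nonneg _)
    · filter_upwards [ae_restrict_mem measurableSet_ball] with z hz
      refine tendsto_const_nhds.congr' ?_
      filter_upwards [hct z hz] with n h1
      rw [h1]
      ring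
  have h := tendsto_nhds_unique (TL.congr hid) TR
  linarith only [h]

end Vale.Agent.P071.H262
end
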