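import Vale.Agent.P071.H262.Final

set_option linter.all false

/-!
# Flat and hyperbolic metrics
-/

open scoped ComplexConjugate Topology Real ContDiff ENNReal
open Metric Filter MeasureTheory

noncomputable section

namespace Vale.Agent.P071.H262

open Vale.Agent.P071

variable {p : ℕ}

/-- Holomorphic functions on a larger disc, with a norm bound. -/
theorem rep_bound (p : ℕ) {ρ : ℝ} (h1 : 1 < ρ) : ∃ C : ℝ, 0 ≤ C ∧ ∀ (g : ℂ → ℂ) (R : ℝ),
    ρ < R → DifferentiableOn ℂ g (ball 0 R) → ∀ M : ℝ, 0 ≤ M → (∀ z ∈ sphere (0 : ℂ) ρ, ‖g z‖ ≤ M) →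
    ∃ a : Y (p + 1), (∀ z : ℂ, ‖z‖ ≤ 1 → ev a z = g z) ∧ dzb p a = 0 ∧ ‖a‖ ≤ C * M := by
  have hρ : 0 < ρ := one_pos.trans h1
  have hr0 : 0 ≤ ρ⁻¹ := (inv_pos.2 hρ).le
  have hr1 : ρ⁻¹ < 1 := inv_lt_one_of_one_lt₀ h1
  have hsum0 := Ends.exists_geom_bound (p + 1) hr0 hr1
  refine ⟨∑' n : ℕ, ρ⁻¹ ^ n * (1 + (n : ℝ)) ^ (p + 1), tsum_nonneg fun n => by positivity, ?_⟩
  intro g R hR hg M hM hb
  set c : ℕ → ℂ := fun n => (n.factorial : ℂ)⁻¹ * iteratedDeriv n g 0 with hc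
  have hR0 : 0 < R := hρ.trans hR
  have hdc : DiffContOnCl ℂ g (ball 0 ρ) := by
    refine DifferentiableOn.diffContOnCl ?_
    rw [closure_ball _ hρ.ne']
    exact hg.mono (closedBall_subset_ball hR)
  have hcb : ∀ n, ‖c n‖ ≤ M * ρ⁻¹ ^ n := by
    intro n
    have h2 := Complex.norm_iteratedDeriv_le_of_forall_mem_sphere_norm_le n hρ hdc hb
    have hf : (0 : ℝ) < n.factorial := by exact_mod_cast n.factorial_pos
    rw [hc]
    simp only
    rw [norm_mul, norm_inv, Complex.norm_natCast]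
    calc (n.factorial : ℝ)⁻¹ * ‖iteratedDeriv n g 0‖
        ≤ (n.factorial : ℝ)⁻¹ * (n.factorial * M / ρ ^ n) := by gcongr
      _ = M * ρ⁻¹ ^ n := by rw [inv_pow]; field_simp
  have hs : ∀ z : ℂ, ‖z‖ ≤ 1 → HasSum (fun n => c n * z ^ n) (g z) := by
    intro z hz
    have := Complex.hasSum_taylorSeries_on_ball (f := g) (c := 0) (r := R) hg
      (z := z) (by
        rw [mem_ball_zero_iff]
        exact hz.trans_lt (h1.trans hR))
    have h2 : (fun n : ℕ => (n.factorial : ℂ)⁻¹ • (z - 0) ^ n • iteratedDeriv n g 0) =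
        fun n => c n * z ^ n := by
      funext n
      simp only [sub_zero, smul_eq_mul, hc]
      ring
    rwa [h2] at this
  have hn : ∀ n : ℕ, ‖c n • e (p + 1) (n, 0)‖ ≤ M * (ρ⁻¹ ^ n * (1 + (n : ℝ)) ^ (p + 1)) := by
    intro n
    rw [norm_smul, norm_e]
    have h5 : wt (p + 1) ((n, 0) : Ix) = (1 + (n : ℝ)) ^ (p + 1) := by unfold wt; simp
    rw [h5]
    calc ‖c n‖ * (1 + (n : ℝ)) ^ (p + 1) ≤ (M * ρ⁻¹ ^ n) * (1 + (n : ℝ)) ^ (p + 1) := by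
          gcongr; exact hcb n
      _ = _ := by ring
  have hsum : Summable fun n : ℕ => c n • e (p + 1) (n, 0) :=
    Summable.of_norm_bounded (hsum0.mul_left M) hn
  refine ⟨∑' n, c n • e (p + 1) (n, 0), fun z hz => ?_, ?_, ?_⟩
  · rw [← evL_apply _ hz]
    have h6 := hsum.hasSum.mapL (evL (p + 1) z hz)
    refine h6.unique ?_
    convert hs z hz using 2 with n
    rw [map_smul, evL_e, smul_eq_mul, mon]
    simp
  · have h6 := hsum.hasSum.mapL (dzb p)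
    refine h6.unique ?_
    convert hasSum_zero using 2 with n
    rw [map_smul, dzb_e]
    simp
  · have := tsum_of_norm_bounded (hsum0.mul_left M).hasSum hn
    rw [tsum_mul_left] at this
    linarith only [this]

/-- The values of `dz 7`, `dzb 7`, `dzb 6 (dz 7)` at a point: product rules. -/
theorem d1_mul (a b : Y 8) {z : ℂ} (hz : ‖z‖ ≤ 1) : ev (dz 7 (a * b)) z =
    ev (dz 7 a) z * ev b z + ev a z * ev (dz 7 b) z := by
  rw [dz_mul, ev_add _ _ hz, ev_mul _ _ hz, ev_mul _ _ hz, ev_incl, ev_incl]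

theorem d1b_mul (a b : Y 8) {z : ℂ} (hz : ‖z‖ ≤ 1) : ev (dzb 7 (a * b)) z =
    ev (dzb 7 a) z * ev b z + ev a z * ev (dzb 7 b) z := by
  rw [dzb_mul, ev_add _ _ hz, ev_mul _ _ hz, ev_mul _ _ hz, ev_incl, ev_incl]

theorem d2_mul (a b : Y 8) {z : ℂ} (hz : ‖z‖ ≤ 1) : ev (dzb 6 (dz 7 (a * b))) z =
    ev (dzb 6 (dz 7 a)) z * ev b z + ev (dz 7 a) z * ev (dzb 7 b) z +
      ev (dzb 7 a) z * ev (dz 7 b) z + ev a z * ev (dzb 6 (dz 7 b)) z := by
  rw [dz_mul, map_add, dzb_mul, dzb_mul, ev_add _ _ hz, ev_add _ _ hz, ev_add _ _ hz,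
    ev_mul _ _ hz, ev_mul _ _ hz, ev_mul _ _ hz, ev_mul _ _ hz]
  have e1 : ∀ a : Y 8, dzb 6 (incl (Nat.le_succ 7) a) = incl (Nat.le_succ 6) (dzb 7 a) :=
    fun a => dzb_incl (Nat.le_succ 6) a
  rw [e1, e1]
  simp only [ev_incl]
  ring

/-- The derivatives of `A`, `conj A` for holomorphic `A`. -/
theorem hol_d {A : Y 8} (hA : dzb 7 A = 0) (z : ℂ) :
    ev (dzb 7 A) z = 0 ∧ ev (dzb 6 (dz 7 A)) z = 0 ∧ ev (dz 7 (cj A)) z = 0 ∧
      ev (dzb 6 (dz 7 (cj A))) z = 0 ∧ ev (dzb 7 (cj A)) z = conj (ev (dz 7 A) z) := by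
  have hz0 : ∀ q : ℕ, ev (0 : Y q) z = 0 := fun q => by simp [ev]
  have h1 : dz 7 (cj A) = 0 := by
    rw [← cj_dzb, hA]
    ext i
    simp
  refine ⟨by rw [hA, hz0], ?_, by rw [h1, hz0], by rw [h1, map_zero, hz0], ?_⟩
  · rw [← dz_dzb, hA, map_zero, hz0]
  · rw [← cj_dz, ev_cj]

/-- From series back to functions. -/
theorem curv_of_npc {κ : ℂ → ℝ} {k : Y 8} (hr : cj k = k)
    (hκ : ∀ z : ℂ, ‖z‖ ≤ 1 → ev k z = (κ z : ℂ)) (h : NPC k) : NonposCurved κ := by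
  intro z hzD
  have hz : ‖z‖ < 1 := mem_ball_zero_iff.1 hzD
  have heq : κ =ᶠ[𝓝 z] fun y => (ev k y).re := by
    filter_upwards [isOpen_ball.mem_nhds hzD] with y hy
    rw [hκ y (mem_ball_zero_iff.1 hy).le, Complex.ofReal_re]
  have h1 := h z hz
  have e1 : px κ z = px (fun y => (ev k y).re) z := by
    unfold px; rw [heq.fderiv_eq]
  have e2 : py κ z = py (fun y => (ev k y).re) z := by
    unfold py; rw [heq.fderiv_eq]
  have hev2 : ∀ᶠ y in 𝓝 z, κ =ᶠ[𝓝 y] fun y => (ev k y).re := heq.eventuallyEq_nhds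
  have e3 : px (px κ) z = px (px fun y => (ev k y).re) z := by
    have : px κ =ᶠ[𝓝 z] px fun y => (ev k y).re := by
      filter_upwards [hev2] with y hy
      unfold px; rw [hy.fderiv_eq]
    show fderiv ℝ (px κ) z 1 = fderiv ℝ (px fun y => (ev k y).re) z 1
    rw [this.fderiv_eq]
  have e4 : py (py κ) z = py (py fun y => (ev k y).re) z := by
    have : py κ =ᶠ[𝓝 z] py fun y => (ev k y).re := by
      filter_upwards [hev2] with y hy
      unfold py; rw [hy.fderiv_eq]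
    show fderiv ℝ (py κ) z Complex.I = fderiv ℝ (py fun y => (ev k y).re) z Complex.I
    rw [this.fderiv_eq]
  have e5 : κ z = (ev k z).re := by rw [hκ z hz.le, Complex.ofReal_re]
  have e6 : Lim.lap (fun y => (ev k y).re) z = 4 * (ev (dzb 6 (dz 7 k)) z).re := by
    rw [lap_ev (p := 6) k hz, lap_dzb]
    simp
  have e7 : Lim.gsq (fun y => (ev k y).re) z = 4 * Complex.normSq (ev (dz 7 k) z) := by
    rw [gsq_ev (p := 7) k hz, dx_apply, dy_apply, ev_add _ _ hz.le, ev_smul, ev_sub _ _ hz.le]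
    have h2 : ev (dzb 7 k) z = conj (ev (dz 7 k) z) := by
      rw [← ev_cj, cj_dz, hr]
    rw [h2, Complex.normSq_apply]
    simp
    ring
  have e8 : px (px fun y => (ev k y).re) z + py (py fun y => (ev k y).re) z =
      4 * (ev (dzb 6 (dz 7 k)) z).re := e6
  have e9 : px (fun y => (ev k y).re) z ^ 2 + py (fun y => (ev k y).re) z ^ 2 =
      4 * Complex.normSq (ev (dz 7 k) z) := e7
  rw [e1, e2, e3, e4, e5, e8, e9]
  unfold G.rv at h1
  nlinarith only [h1]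

theorem seriesWeight_of {κ : ℂ → ℝ} {k : Y 8} (hκ : ∀ z : ℂ, ‖z‖ ≤ 1 → ev k z = (κ z : ℂ)) :
    SeriesWeight κ := by
  refine ⟨fun i => cf k i, summable_cf k, fun z hz => ?_⟩
  have h1 := (summable_ev k hz).hasSum
  have h2 : ∑' i, cf k i * mon i z = (κ z : ℂ) := hκ z hz
  rw [h2] at h1
  exact h1

/-- `κ κ_{z zb} - κ_z κ_{zb}` is real for real `k`. -/
theorem npc_of_formula {k : Y 8} (hr : cj k = k) {c : ℂ → ℝ} (hc : ∀ z, ‖z‖ < 1 → 0 ≤ c z)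
    (h : ∀ z, ‖z‖ < 1 → ev k z * ev (dzb 6 (dz 7 k)) z - ev (dz 7 k) z * ev (dzb 7 k) z = c z) :
    NPC k := by
  intro z hz
  have h1 := h z hz
  have h2 : ev (dzb 7 k) z = conj (ev (dz 7 k) z) := by
    rw [← ev_cj, cj_dz, hr]
  rw [h2, Complex.mul_conj, ← ev_real hr z] at h1
  have h3 := congrArg Complex.re h1
  rw [Complex.sub_re, Complex.re_ofReal_mul, Complex.ofReal_re, Complex.ofReal_re] at h3
  have h4 := hc z hz
  unfold G.rv
  linarith only [h3, h4]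

/-- **Flat metrics** `|F|²`. -/
theorem flat {F : ℂ → ℂ} {R : ℝ} (hR : 1 < R) (hF : DifferentiableOn ℂ F (ball 0 R)) :
    SeriesWeight (fun z => ‖F z‖ ^ 2) ∧ NonposCurved (fun z => ‖F z‖ ^ 2) := by
  obtain ⟨ρ, hρ1, hρR⟩ := exists_between hR
  obtain ⟨C, hC0, hC⟩ := rep_bound 7 hρ1
  have hFc : ContinuousOn F (sphere 0 ρ) := hF.continuousOn.mono fun z hz => by
    rw [mem_ball_zero_iff, mem_sphere_zero_iff_norm.1 hz]; exact hρR
  obtain ⟨M, hM⟩ := (isCompact_sphere (0 : ℂ) ρ).exists_bound_of_continuousOn hFc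
  obtain ⟨A, hA1, hA2, -⟩ := hC F R hρR hF (max M 0) (le_max_right _ _)
    fun z hz => (hM z hz).trans (le_max_left _ _)
  set k : Y 8 := A * cj A with hk
  have hr : cj k = k := by rw [hk, cj_mul, cj_cj, ser_mul_comm]
  have hκ : ∀ z : ℂ, ‖z‖ ≤ 1 → ev k z = ((‖F z‖ ^ 2 : ℝ) : ℂ) := by
    intro z hz
    rw [hk, ev_mul _ _ hz, ev_cj, hA1 z hz, Complex.mul_conj, Complex.normSq_eq_norm_sq]
  refine ⟨seriesWeight_of hκ, curv_of_npc hr hκ (npc_of_formula hr (c := fun _ => 0)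
    (fun _ _ => le_rfl) fun z hz => ?_)⟩
  obtain ⟨a1, a2, a3, a4, a5⟩ := hol_d hA2 z
  rw [hk, ev_mul _ _ hz.le, d2_mul _ _ hz.le, d1_mul _ _ hz.le, d1b_mul _ _ hz.le, a1, a2, a3, a4, a5]
  push_cast
  ring

/-- **Hyperbolic metrics** `4 |f'|² / (1 - |f|²)²`. -/
theorem hyp {f : ℂ → ℂ} {R : ℝ} (hR : 1 < R) (hf : DifferentiableOn ℂ f (ball 0 R))
    (hf1 : ∀ z : ℂ, ‖z‖ ≤ 1 → ‖f z‖ < 1) :
    SeriesWeight (fun z => 4 * ‖deriv f z‖ ^ 2 / (1 - ‖f z‖ ^ 2) ^ 2) ∧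
      NonposCurved (fun z => 4 * ‖deriv f z‖ ^ 2 / (1 - ‖f z‖ ^ 2) ^ 2) := by
  -- the radius
  have hR0 : 0 < R := one_pos.trans hR
  have hfc : ContinuousOn f (ball 0 R) := hf.continuousOn
  have hUo : IsOpen (ball (0 : ℂ) R ∩ f ⁻¹' ball 0 1) :=
    hfc.isOpen_inter_preimage isOpen_ball isOpen_ball
  have hKU : closedBall (0 : ℂ) 1 ⊆ ball (0 : ℂ) R ∩ f ⁻¹' ball 0 1 := fun z hz =>
    ⟨closedBall_subset_ball hR hz, mem_ball_zero_iff.2 (hf1 z (mem_closedBall_zero_iff.1 hz))⟩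
  obtain ⟨δ, hδ, hδU⟩ := (isCompact_closedBall (0 : ℂ) 1).exists_cthickening_subset_open hUo hKU
  set ρ : ℝ := 1 + δ with hρ
  have hρ1 : 1 < ρ := by linarith only [hδ, hρ]
  have hρ0 : 0 < ρ := one_pos.trans hρ1
  have hsph : ∀ z ∈ sphere (0 : ℂ) ρ, z ∈ ball (0 : ℂ) R ∧ ‖f z‖ < 1 := by
    intro z hz
    have hzn : ‖z‖ = ρ := mem_sphere_zero_iff_norm.1 hz
    have h1 : z ∈ cthickening δ (closedBall (0 : ℂ) 1) := by
      have hρc : (ρ : ℂ) ≠ 0 := by exact_mod_cast hρ0.ne'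
      refine mem_cthickening_of_dist_le z (z / ρ) δ _ ?_ ?_
      · rw [mem_closedBall_zero_iff, norm_div, Complex.norm_real, Real.norm_of_nonneg hρ0.le, hzn,
          div_self hρ0.ne']
      · have e : z - z / ρ = ((1 - ρ⁻¹ : ℝ) : ℂ) * z := by
          push_cast
          field_simp
        have h2 : 0 ≤ 1 - ρ⁻¹ := by
          have := inv_lt_one_of_one_lt₀ hρ1
          linarith only [this]
        rw [dist_eq_norm, e, norm_mul, Complex.norm_real, Real.norm_of_nonneg h2, hzn]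
        have h3 : (1 - ρ⁻¹) * ρ = ρ - 1 := by field_simp
        rw [h3, hρ]
        linarith only []
    have h2 := hδU h1
    exact ⟨h2.1, mem_ball_zero_iff.1 h2.2⟩
  have hρR : ρ < R := by
    have h1 := (hsph (ρ : ℂ) (by simp [abs_of_pos hρ0])).1
    rw [mem_ball_zero_iff, Complex.norm_real, Real.norm_of_nonneg hρ0.le] at h1
    exact h1
  have hne : (sphere (0 : ℂ) ρ).Nonempty := NormedSpace.sphere_nonempty.2 hρ0.le
  obtain ⟨z₀, hz₀, hmax⟩ := (isCompact_sphere (0 : ℂ) ρ).exists_isMaxOn hne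
    (hfc.norm.mono fun z hz => (hsph z hz).1)
  set q : ℝ := ‖f z₀‖ with hq
  have hq1 : q < 1 := (hsph z₀ hz₀).2
  have hq0 : 0 ≤ q := norm_nonneg _
  have hqb : ∀ z ∈ sphere (0 : ℂ) ρ, ‖f z‖ ≤ q := fun z hz => (isMaxOn_iff.1 hmax) z hz
  -- the series
  obtain ⟨C, hC0, hC⟩ := rep_bound 7 hρ1
  have hfd : DifferentiableOn ℂ (deriv f) (ball 0 R) := hf.deriv isOpen_ball
  have hFc : ContinuousOn (deriv f) (sphere 0 ρ) := hfd.continuousOn.mono fun z hz => (hsph z hz).1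
  obtain ⟨M, hM⟩ := (isCompact_sphere (0 : ℂ) ρ).exists_bound_of_continuousOn hFc
  obtain ⟨A, hA1, hA2, -⟩ := hC (deriv f) R hρR hfd (max M 0) (le_max_right _ _)
    fun z hz => (hM z hz).trans (le_max_left _ _)
  have hex : ∀ n : ℕ, ∃ b : Y 8, (∀ z : ℂ, ‖z‖ ≤ 1 → ev b z = f z ^ n) ∧ dzb 7 b = 0 ∧
      ‖b‖ ≤ C * q ^ n := fun n =>
    hC (fun z => f z ^ n) R hρR (hf.pow n) (q ^ n) (pow_nonneg hq0 n) fun z hz => by
      rw [norm_pow]
      exact pow_le_pow_left₀ (norm_nonneg _) (hqb z hz) n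
  choose b hb1 hb2 hb3 using hex
  have hq2 : q ^ 2 < 1 := by nlinarith only [hq0, hq1]
  have hs0 := Ends.exists_geom_bound 1 (sq_nonneg q) hq2
  have hn : ∀ n : ℕ, ‖(4 * ((n : ℂ) + 1)) • ((A * cj A) * (b n * cj (b n)))‖ ≤
      (4 * ‖A‖ ^ 2 * C ^ 2) * ((q ^ 2) ^ n * (1 + (n : ℝ)) ^ 1) := by
    intro n
    have e1 : ‖(4 * ((n : ℂ) + 1))‖ = 4 * ((n : ℝ) + 1) := by
      have : (4 * ((n : ℂ) + 1)) = ((4 * ((n : ℝ) + 1) : ℝ) : ℂ) := by push_cast; ring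
      rw [this, Complex.norm_real, Real.norm_of_nonneg (by positivity)]
    rw [norm_smul, e1]
    have e2 : ‖(A * cj A) * (b n * cj (b n))‖ ≤ ‖A‖ ^ 2 * (C * q ^ n) ^ 2 := by
      calc ‖(A * cj A) * (b n * cj (b n))‖ ≤ ‖A * cj A‖ * ‖b n * cj (b n)‖ := norm_ser_mul_le _ _
        _ ≤ (‖A‖ * ‖cj A‖) * (‖b n‖ * ‖cj (b n)‖) := by
            gcongr
            · exact norm_ser_mul_le _ _
            · exact norm_ser_mul_le _ _
        _ = ‖A‖ ^ 2 * ‖b n‖ ^ 2 := by rw [norm_cj, norm_cj]; ring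
        _ ≤ _ := by gcongr; exact hb3 n
    calc 4 * ((n : ℝ) + 1) * ‖(A * cj A) * (b n * cj (b n))‖
        ≤ 4 * ((n : ℝ) + 1) * (‖A‖ ^ 2 * (C * q ^ n) ^ 2) := by gcongr
      _ = _ := by rw [← pow_mul, mul_comm 2 n, pow_mul]; ring
  have hsum : Summable fun n : ℕ => (4 * ((n : ℂ) + 1)) • ((A * cj A) * (b n * cj (b n))) :=
    Summable.of_norm_bounded (hs0.mul_left _) hn
  set k : Y 8 := ∑' n : ℕ, (4 * ((n : ℂ) + 1)) • ((A * cj A) * (b n * cj (b n))) with hk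
  have hκ : ∀ z : ℂ, ‖z‖ ≤ 1 →
      ev k z = ((4 * ‖deriv f z‖ ^ 2 / (1 - ‖f z‖ ^ 2) ^ 2 : ℝ) : ℂ) := by
    intro z hz
    have hfz := hf1 z hz
    have hx : ‖((‖f z‖ ^ 2 : ℝ) : ℂ)‖ < 1 := by
      rw [Complex.norm_real, Real.norm_of_nonneg (sq_nonneg _)]
      nlinarith only [hfz, norm_nonneg (f z)]
    have h1 := (hasSum_choose_mul_geometric_of_norm_lt_one 1 hx).mul_left
      (4 * ((‖deriv f z‖ ^ 2 : ℝ) : ℂ))
    have h6 := hsum.hasSum.mapL (evL 8 z hz)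
    rw [← evL_apply _ hz]
    have e1 : ((4 * ‖deriv f z‖ ^ 2 / (1 - ‖f z‖ ^ 2) ^ 2 : ℝ) : ℂ) =
        4 * ((‖deriv f z‖ ^ 2 : ℝ) : ℂ) * (1 / (1 - ((‖f z‖ ^ 2 : ℝ) : ℂ)) ^ (1 + 1)) := by
      push_cast
      ring
    rw [e1]
    have h7 : ∀ n : ℕ, (evL 8 z hz) ((4 * ((n : ℂ) + 1)) • ((A * cj A) * (b n * cj (b n)))) =
        4 * ((‖deriv f z‖ ^ 2 : ℝ) : ℂ) * (((n + 1).choose 1 : ℂ) * ((‖f z‖ ^ 2 : ℝ) : ℂ) ^ n) := by
      intro n
      rw [map_smul, evL_apply, ev_mul _ _ hz, ev_mul _ _ hz, ev_mul _ _ hz, ev_cj, ev_cj, hA1 z hz,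
        hb1 n z hz, Complex.mul_conj, Complex.mul_conj, Complex.normSq_eq_norm_sq,
        Complex.normSq_eq_norm_sq, norm_pow, Nat.choose_one_right, smul_eq_mul]
      push_cast
      ring
    simp only [h7] at h6
    exact h6.unique h1
  have hr : cj k = k := Y.ext_ev fun z hz => by
    rw [ev_cj, hκ z hz.le, Complex.conj_ofReal]
  -- the derivative of `B = b 1`
  set B : Y 8 := b 1 with hB
  have hBv : ∀ z : ℂ, ‖z‖ ≤ 1 → ev B z = f z := fun z hz => by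
    rw [hB, hb1 1 z hz, pow_one]
  have hBd : ∀ z : ℂ, ‖z‖ < 1 → ev (dz 7 B) z = ev A z := by
    intro z hz
    have hzR : z ∈ ball (0 : ℂ) R := mem_ball_zero_iff.2 (hz.trans hR)
    have h1 : HasFDerivAt (ev B) (evD B z) z := hasFDerivAt_ev B hz
    have h2 : HasDerivAt f (deriv f z) z := (hf.differentiableAt (isOpen_ball.mem_nhds hzR)).hasDerivAt
    have h3 : HasFDerivAt f _ z := h2.hasFDerivAt.restrictScalars ℝ
    have h4 : f =ᶠ[𝓝 z] ev B := by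
      filter_upwards [isOpen_ball.mem_nhds (mem_ball_zero_iff.2 hz)] with y hy
      rw [hBv y (mem_ball_zero_iff.1 hy).le]
    have h5 := (h3.congr_of_eventuallyEq h4.symm).unique h1
    have h6 := congrArg (fun L : ℂ →L[ℝ] ℂ => L 1) h5
    have h7 : ev (dzb 7 B) z = 0 := (hol_d (hb2 1) z).1
    simp only [evD_apply, h7] at h6
    rw [hA1 z hz.le]
    simpa using h6.symm
  set W : Y 8 := one1 8 - B * cj B with hW
  have hkW : k * (W * W) = (4 : ℂ) • (A * cj A) := by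
    refine Y.ext_ev fun z hz => ?_
    have hfz := hf1 z hz.le
    have hpos : (0 : ℝ) < 1 - ‖f z‖ ^ 2 := by nlinarith only [hfz, norm_nonneg (f z)]
    have hne' : (1 - ((‖f z‖ : ℝ) : ℂ) ^ 2) ≠ 0 := by exact_mod_cast hpos.ne'
    rw [ev_mul _ _ hz.le, ev_mul _ _ hz.le, hκ z hz.le, hW, ev_sub _ _ hz.le, ev_one1,
      ev_mul _ _ hz.le, ev_cj, hBv z hz.le, Complex.mul_conj, Complex.normSq_eq_norm_sq, ev_smul,
      ev_mul _ _ hz.le, ev_cj, hA1 z hz.le, Complex.mul_conj, Complex.normSq_eq_norm_sq]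
    push_cast
    field_simp
  refine ⟨seriesWeight_of hκ, curv_of_npc hr hκ (npc_of_formula hr
    (c := fun z => (4 * ‖deriv f z‖ ^ 2 / (1 - ‖f z‖ ^ 2) ^ 2) ^ 3 / 2)
    (fun z hz => by positivity) fun z hz => ?_)⟩
  obtain ⟨a1, a2, a3, a4, a5⟩ := hol_d hA2 z
  obtain ⟨b1, b2, b3, b4, b5⟩ := hol_d (hb2 1) z
  have hfz := hf1 z hz.le
  have hpos : (0 : ℝ) < 1 - ‖f z‖ ^ 2 := by nlinarith only [hfz, norm_nonneg (f z)]
  -- the four equations
  have e0 := congrArg (fun x : Y 8 => ev x z) hkW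
  have e1 := congrArg (fun x : Y 8 => ev (dz 7 x) z) hkW
  have e1b := congrArg (fun x : Y 8 => ev (dzb 7 x) z) hkW
  have e2 := congrArg (fun x : Y 8 => ev (dzb 6 (dz 7 x)) z) hkW
  have w0 : ev W z = 1 - ev B z * conj (ev B z) := by
    rw [hW, ev_sub _ _ hz.le, ev_one1, ev_mul _ _ hz.le, ev_cj]
  have w1 : ev (dz 7 W) z = -(ev A z * conj (ev B z)) := by
    rw [hW, map_sub, dz_one1, zero_sub, ev_neg, d1_mul _ _ hz.le, b3, hBd z hz, ev_cj]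
    ring
  have w1b : ev (dzb 7 W) z = -(ev B z * conj (ev A z)) := by
    rw [hW, map_sub, dzb_one1, zero_sub, ev_neg, d1b_mul _ _ hz.le, b1, b5, hBd z hz]
    ring
  have w2 : ev (dzb 6 (dz 7 W)) z = -(ev A z * conj (ev A z)) := by
    rw [hW, map_sub, dz_one1, zero_sub, map_neg, ev_neg, d2_mul _ _ hz.le, b1, b2, b3, b4, b5,
      hBd z hz]
    ring
  simp only [map_smul, ev_smul] at e0 e1 e1b e2
  rw [ev_mul _ _ hz.le, ev_mul _ _ hz.le, ev_mul _ _ hz.le, ev_cj, w0] at e0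
  rw [d1_mul _ _ hz.le, d1_mul _ _ hz.le, d1_mul _ _ hz.le, ev_mul _ _ hz.le, ev_cj, w0, w1, a3] at e1
  rw [d1b_mul _ _ hz.le, d1b_mul _ _ hz.le, d1b_mul _ _ hz.le, ev_mul _ _ hz.le, w0, w1b, a1, a5] at e1b
  rw [d2_mul _ _ hz.le, d2_mul _ _ hz.le, d2_mul _ _ hz.le, d1_mul _ _ hz.le, d1b_mul _ _ hz.le,
    ev_mul _ _ hz.le, w0, w1, w1b, w2, a1, a2, a3, a4, a5] at e2
  have hw : (1 - ev B z * conj (ev B z)) ≠ 0 := by
    rw [hBv z hz.le, Complex.mul_conj, Complex.normSq_eq_norm_sq]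
    exact_mod_cast hpos.ne'
  have hc : (((4 * ‖deriv f z‖ ^ 2 / (1 - ‖f z‖ ^ 2) ^ 2) ^ 3 / 2 : ℝ) : ℂ) = ev k z ^ 3 / 2 := by
    rw [hκ z hz.le]
    push_cast
    ring
  show _ = (((4 * ‖deriv f z‖ ^ 2 / (1 - ‖f z‖ ^ 2) ^ 2) ^ 3 / 2 : ℝ) : ℂ)
  rw [hc]
  have hw4 : (1 - ev B z * conj (ev B z)) ^ 4 ≠ 0 := pow_ne_zero _ hw
  apply mul_right_cancel₀ hw4
  generalize ev k z = K at *
  generalize ev (dz 7 k) z = K1 at *
  generalize ev (dzb 7 k) z = K1b at *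
  generalize ev (dzb 6 (dz 7 k)) z = K2 at *
  generalize ev A z = a at *
  generalize conj a = a' at *
  generalize ev (dz 7 A) z = c at *
  generalize conj c = c' at *
  generalize ev B z = x at *
  generalize conj x = x' at *
  linear_combination (K * (1 - x * x') ^ 2) * e2 - (K1 * (1 - x * x') ^ 2) * e1b -
    (4 * a * c') * e1 + (4 * c * c') * e0 - (2 * K * (1 - x * x') * (-(a * x'))) * e1b -
    (K ^ 2 * (1 - x * x') ^ 2 / 2) * e0

end Vale.Agent.P071.H262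
end
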