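import Vale.Agent.P071.H262.Green

set_option linter.all false

/-!
# Approximation in `L²` by series, and the Poincaré inequality for weak `H¹` functions
-/

open scoped ComplexConjugate Topology Real ContDiff ENNReal
open Metric Filter MeasureTheory

noncomputable section

namespace Vale.Agent.P071.H262

open Vale.Agent.P071

variable {p : ℕ}

/-- The disc. -/
abbrev DB : Set ℂ := ball (0 : ℂ) 1

abbrev νD : Measure ℂ := volume.restrict DB

instance : IsFiniteMeasure (volume.restrict (ball (0 : ℂ) 1)) :=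
  ⟨by simpa using measure_ball_lt_top⟩

theorem memLp_ev (a : Y p) : MemLp (fun z => (ev a z).re) 2 (volume.restrict (ball (0 : ℂ) 1)) := by
  refine MemLp.of_bound ((continuousOn_ev_re a).mono ball_subset_closedBall
    |>.aestronglyMeasurable measurableSet_ball) ‖a‖ ?_
  filter_upwards [ae_restrict_mem measurableSet_ball] with z hz
  exact (Complex.abs_re_le_norm _).trans (norm_ev_le _ (mem_ball_zero_iff.1 hz).le)

/-- `κ f ∈ L²`. -/
theorem memLp_mul_ev (k : Y p) {f : ℂ → ℝ} (hf : MemLp f 2 (volume.restrict (ball (0 : ℂ) 1))) :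
    MemLp (fun z => (ev k z).re * f z) 2 (volume.restrict (ball (0 : ℂ) 1)) := by
  refine MemLp.mono' (hf.norm.const_mul ‖k‖) ?_ ?_
  · exact (((continuousOn_ev_re k).mono ball_subset_closedBall).aestronglyMeasurable
      measurableSet_ball).mul hf.1
  · filter_upwards [ae_restrict_mem measurableSet_ball] with z hz
    rw [norm_mul]
    refine mul_le_mul_of_nonneg_right ?_ (norm_nonneg _)
    exact (Complex.abs_re_le_norm _).trans (norm_ev_le _ (mem_ball_zero_iff.1 hz).le)

theorem int_pair {f g : ℂ → ℝ} (hf : MemLp f 2 (volume.restrict (ball (0 : ℂ) 1)))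
    (hg : MemLp g 2 (volume.restrict (ball (0 : ℂ) 1))) :
    Integrable (fun z => f z * g z) (volume.restrict (ball (0 : ℂ) 1)) := hf.integrable_mul hg

theorem cs_sq {f g : ℂ → ℝ} (hf : MemLp f 2 (volume.restrict (ball (0 : ℂ) 1)))
    (hg : MemLp g 2 (volume.restrict (ball (0 : ℂ) 1))) :
    (∫ z in ball (0 : ℂ) 1, f z * g z) ^ 2 ≤
      (∫ z in ball (0 : ℂ) 1, f z ^ 2) * ∫ z in ball (0 : ℂ) 1, g z ^ 2 := by
  have := integral_dot_sq_le (ν := volume.restrict (ball (0 : ℂ) 1)) (f₁ := f) (f₂ := fun _ => 0)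
    (g₁ := g) (g₂ := fun _ => 0) (by simpa using hf.integrable_sq) (by simpa using hg.integrable_sq)
    (by simpa using int_pair hf hg)
  simpa using this

/-- Square integrable functions are limits of real series. -/
theorem exists_L2 {v : ℂ → ℝ} (hv : MemLp v 2 (volume.restrict (ball (0 : ℂ) 1))) :
    ∃ s : ℕ → Y p, (∀ n, cj (s n) = s n) ∧
      Tendsto (fun n => ∫ z in ball (0 : ℂ) 1, ((ev (s n) z).re - v z) ^ 2) atTop (𝓝 0) := by
  set V : ℂ → ℝ := (ball (0 : ℂ) 1).indicator v with hV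
  have hVm : MemLp V 2 volume := (memLp_indicator_iff_restrict measurableSet_ball).2 hv
  have hsm : ∀ n, ContDiff ℝ ∞ (Lim.Mol.moll n V) := fun n =>
    Lim.Mol.moll_contDiff n (hVm.locallyIntegrable (by norm_num))
  have hex : ∀ n : ℕ, ∃ a : Y p, cj a = a ∧
      ∀ z : ℂ, ‖z‖ ≤ 1 → |(ev a z).re - Lim.Mol.moll n V z| ≤ 1 / ((n : ℝ) + 1) := fun n =>
    exists_ev_approx p (hsm n).continuous.continuousOn (by positivity)
  choose s hs1 hs2 using hex
  refine ⟨s, hs1, ?_⟩
  have hT := Reg.Int1.conv_sq hVm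
  have hT2 : Tendsto (fun n : ℕ => 2 * (1 / ((n : ℝ) + 1)) ^ 2 * (volume (ball (0 : ℂ) 1)).toReal +
      2 * ∫ z, (Lim.Mol.moll n V z - V z) ^ 2) atTop (𝓝 0) := by
    have h1 := (((tendsto_one_div_add_atTop_nhds_zero_nat (𝕜 := ℝ)).pow 2).const_mul 2).mul_const
      (volume (ball (0 : ℂ) 1)).toReal
    have h2 := h1.add (hT.const_mul 2)
    simpa using h2
  refine squeeze_zero (fun n => integral_nonneg fun z => sq_nonneg _) (fun n => ?_) hT2
  have hm : MemLp (fun z => Lim.Mol.moll n V z - V z) 2 volume := (Lim.Mol.moll_memLp n hVm).sub hVm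
  have i1 : Integrable (fun z => (Lim.Mol.moll n V z - V z) ^ 2) volume := hm.integrable_sq
  have i2 : IntegrableOn (fun _ : ℂ => 2 * (1 / ((n : ℝ) + 1)) ^ 2) (ball (0 : ℂ) 1) :=
    integrableOn_const measure_ball_lt_top.ne
  have i3 : Integrable (fun z => ((ev (s n) z).re - v z) ^ 2) (volume.restrict (ball (0 : ℂ) 1)) :=
    ((memLp_ev (s n)).sub hv).integrable_sq
  calc ∫ z in ball (0 : ℂ) 1, ((ev (s n) z).re - v z) ^ 2
      ≤ ∫ z in ball (0 : ℂ) 1, (2 * (1 / ((n : ℝ) + 1)) ^ 2 +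
        2 * (Lim.Mol.moll n V z - V z) ^ 2) := by
        refine setIntegral_mono_on i3 (i2.add (i1.const_mul 2).integrableOn) measurableSet_ball ?_
        intro z hz
        have h1 := hs2 n z (mem_ball_zero_iff.1 hz).le
        have h2 : V z = v z := Set.indicator_of_mem hz v
        have h3 : ((ev (s n) z).re - Lim.Mol.moll n V z) ^ 2 ≤ (1 / ((n : ℝ) + 1)) ^ 2 := by
          rw [← sq_abs]
          exact pow_le_pow_left₀ (abs_nonneg _) h1 2
        rw [h2]
        nlinarith only [h3, sq_nonneg (((ev (s n) z).re - Lim.Mol.moll n V z) -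
          (Lim.Mol.moll n V z - v z))]
    _ = 2 * (1 / ((n : ℝ) + 1)) ^ 2 * (volume (ball (0 : ℂ) 1)).toReal +
        2 * ∫ z in ball (0 : ℂ) 1, (Lim.Mol.moll n V z - V z) ^ 2 := by
        rw [integral_add i2 (i1.const_mul 2).integrableOn, setIntegral_const, integral_const_mul]
        simp only [Measure.real, smul_eq_mul]
        ring
    _ ≤ _ := by
        have : ∫ z in ball (0 : ℂ) 1, (Lim.Mol.moll n V z - V z) ^ 2 ≤
            ∫ z, (Lim.Mol.moll n V z - V z) ^ 2 :=
          setIntegral_le_integral i1 (Eventually.of_forall fun z => sq_nonneg _)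
        linarith only [this]

theorem tendsto_pair {v u : ℂ → ℝ} (hv : MemLp v 2 (volume.restrict (ball (0 : ℂ) 1)))
    (hu : MemLp u 2 (volume.restrict (ball (0 : ℂ) 1))) {s : ℕ → ℂ → ℝ}
    (hs : ∀ n, MemLp (s n) 2 (volume.restrict (ball (0 : ℂ) 1)))
    (ht : Tendsto (fun n => ∫ z in ball (0 : ℂ) 1, (s n z - v z) ^ 2) atTop (𝓝 0)) :
    Tendsto (fun n => ∫ z in ball (0 : ℂ) 1, u z * s n z) atTop
      (𝓝 (∫ z in ball (0 : ℂ) 1, u z * v z)) := by
  have h1 : Tendsto (fun n => (∫ z in ball (0 : ℂ) 1, u z * (s n z - v z)) ^ 2) atTop (𝓝 0) := by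
    have h2 := ht.const_mul (∫ z in ball (0 : ℂ) 1, u z ^ 2)
    rw [mul_zero] at h2
    exact squeeze_zero (fun n => sq_nonneg _) (fun n => cs_sq hu ((hs n).sub hv)) h2
  have h3 : Tendsto (fun n => ∫ z in ball (0 : ℂ) 1, u z * (s n z - v z)) atTop (𝓝 0) := by
    have h4 := h1.sqrt
    rw [Real.sqrt_zero] at h4
    rw [tendsto_zero_iff_abs_tendsto_zero]
    refine h4.congr fun n => ?_
    rw [Real.sqrt_sq_eq_abs]
    rfl
  have h5 := h3.add_const (∫ z in ball (0 : ℂ) 1, u z * v z)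
  rw [zero_add] at h5
  refine h5.congr fun n => ?_
  have i2 : Integrable (fun z => u z * (s n z - v z)) (volume.restrict (ball (0 : ℂ) 1)) :=
    int_pair hu ((hs n).sub hv)
  rw [← integral_add i2 (int_pair hu hv)]
  congr 1
  funext z
  ring

/-- `κ`-weighted square integrals converge. -/
theorem tendsto_wsq (k : Y p) {v : ℂ → ℝ} (hv : MemLp v 2 (volume.restrict (ball (0 : ℂ) 1)))
    {s : ℕ → ℂ → ℝ} (hs : ∀ n, MemLp (s n) 2 (volume.restrict (ball (0 : ℂ) 1)))
    (ht : Tendsto (fun n => ∫ z in ball (0 : ℂ) 1, (s n z - v z) ^ 2) atTop (𝓝 0)) :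
    Tendsto (fun n => ∫ z in ball (0 : ℂ) 1, (ev k z).re * s n z ^ 2) atTop
      (𝓝 (∫ z in ball (0 : ℂ) 1, (ev k z).re * v z ^ 2)) := by
  -- `κ s² = κ v² + 2 κ v (s - v) + κ (s - v)²`
  have hd : ∀ n, MemLp (fun z => s n z - v z) 2 (volume.restrict (ball (0 : ℂ) 1)) :=
    fun n => (hs n).sub hv
  have h1 := tendsto_pair hv (memLp_mul_ev k hv) hs ht
  have h2 : Tendsto (fun n => ∫ z in ball (0 : ℂ) 1, (ev k z).re * (s n z - v z) ^ 2) atTop
      (𝓝 0) := by
    have h3 := ht.const_mul ‖k‖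
    rw [mul_zero] at h3
    refine squeeze_zero_norm (fun n => ?_) h3
    rw [← integral_const_mul]
    refine norm_integral_le_of_norm_le ((hd n).integrable_sq.const_mul _) ?_
    filter_upwards [ae_restrict_mem measurableSet_ball] with z hz
    rw [Real.norm_eq_abs, abs_mul, abs_of_nonneg (sq_nonneg (s n z - v z))]
    refine mul_le_mul_of_nonneg_right ?_ (sq_nonneg _)
    exact (Complex.abs_re_le_norm _).trans (norm_ev_le _ (mem_ball_zero_iff.1 hz).le)
  have h4 := (((h1.const_mul 2).add h2).sub_const (∫ z in ball (0 : ℂ) 1, (ev k z).re * v z * v z))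
  have e0 : 2 * (∫ z in ball (0 : ℂ) 1, (ev k z).re * v z * v z) + 0 -
      (∫ z in ball (0 : ℂ) 1, (ev k z).re * v z * v z) =
      ∫ z in ball (0 : ℂ) 1, (ev k z).re * v z ^ 2 := by
    have : ∫ z in ball (0 : ℂ) 1, (ev k z).re * v z ^ 2 =
        ∫ z in ball (0 : ℂ) 1, (ev k z).re * v z * v z := by
      congr 1; funext z; ring
    rw [this]
    ring
  rw [e0] at h4
  refine h4.congr fun n => ?_
  have i1 := int_pair (memLp_mul_ev k hv) (hs n)
  have i2 := int_pair (memLp_mul_ev k (hd n)) (hd n)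
  have i3 := int_pair (memLp_mul_ev k hv) hv
  have i2' : Integrable (fun z => (ev k z).re * (s n z - v z) ^ 2)
      (volume.restrict (ball (0 : ℂ) 1)) := by
    refine i2.congr (Eventually.of_forall fun z => ?_)
    simp only
    ring
  have i4 : Integrable (fun z => 2 * ((ev k z).re * v z * s n z) +
      (ev k z).re * (s n z - v z) ^ 2) (volume.restrict (ball (0 : ℂ) 1)) :=
    (i1.const_mul 2).add i2'
  rw [← integral_const_mul, ← integral_add (i1.const_mul 2) i2', ← integral_sub i4 i3]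
  congr 1
  funext z
  ring

end Vale.Agent.P071.H262
end
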