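import Vale.Agent.P071.H969.Disc

set_option linter.all false

/-!
# Nonpositively curved weights are good; no critical points
-/

open scoped ComplexConjugate Topology Real ContDiff ENNReal
open Metric Filter MeasureTheory

noncomputable section

namespace Vale.Agent.P071.H262

open Vale.Agent.P071 Vale.Agent.P071.G

variable {p : ℕ}

theorem dz_path (a : Y (p + 1)) (s : ℝ) :
    dz p (Ends.path a s) = (Ends.clamp s : ℂ) • Ends.path (dz p a) s := by
  ext i
  rw [cf_dz, Ends.cf_path, cf_smul, Ends.cf_path, cf_dz]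
  push_cast
  ring

theorem dzb_path (a : Y (p + 1)) (s : ℝ) :
    dzb p (Ends.path a s) = (Ends.clamp s : ℂ) • Ends.path (dzb p a) s := by
  ext i
  rw [cf_dzb, Ends.cf_path, cf_smul, Ends.cf_path, cf_dzb]
  push_cast
  ring

/-- `κ Δκ ≥ |∇κ|²` for a series. -/
def NPC (a : Y 8) : Prop := ∀ z : ℂ, ‖z‖ < 1 →
  0 ≤ (ev (dzb 6 (dz 7 a)) z).re * rv a z - Complex.normSq (ev (dz 7 a) z)

theorem adW_path {a : Y 8} (ha : IsW a) (hc : NPC a) {s : ℝ} (hs : s ∈ Set.Icc (0 : ℝ) 1) :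
    AdW ((mu1 (Ends.path a s) : ℂ) • Ends.path a s) := by
  have hkW := isW_path ha s
  refine adW_of_curv hkW fun z hz => ?_
  set μ := mu1 (Ends.path a s) with hμd
  have hμ : 0 < μ := mu1_pos hkW
  have hcl : Ends.clamp s = s := Ends.clamp_of_mem hs.1 hs.2
  have hsz : ‖(s : ℂ) * z‖ < 1 := by
    rw [norm_mul, Complex.norm_real, Real.norm_of_nonneg hs.1]
    calc s * ‖z‖ ≤ 1 * ‖z‖ := mul_le_mul_of_nonneg_right hs.2 (norm_nonneg _)
      _ < 1 := by rw [one_mul]; exact hz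
  have e1 : rv ((μ : ℂ) • Ends.path a s) z = μ * rv a (s * z) := by
    unfold rv
    rw [ev_smul, Complex.re_ofReal_mul, Ends.ev_path a hs.1 hs.2]
  have e2 : ev (dz 7 ((μ : ℂ) • Ends.path a s)) z = (μ * s : ℝ) * ev (dz 7 a) (s * z) := by
    rw [map_smul, dz_path, hcl, ev_smul, ev_smul, Ends.ev_path _ hs.1 hs.2]
    push_cast
    ring
  have e3 : (ev (dzb 6 (dz 7 ((μ : ℂ) • Ends.path a s))) z).re =
      μ * s ^ 2 * (ev (dzb 6 (dz 7 a)) (s * z)).re := by
    rw [map_smul, dz_path, hcl, map_smul, map_smul, dzb_path, hcl, ev_smul, ev_smul, ev_smul,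
      Ends.ev_path _ hs.1 hs.2, Complex.re_ofReal_mul, Complex.re_ofReal_mul, Complex.re_ofReal_mul]
    ring
  have h1 := hc _ hsz
  have h2 := ha.pos _ hsz.le
  have h3 : 0 < rv a (s * z) := h2
  rw [e1, e2, e3, Complex.normSq_mul, Complex.normSq_ofReal]
  have h4 : 0 ≤ 4 * (μ ^ 2 * s ^ 2 * ((ev (dzb 6 (dz 7 a)) (s * z)).re * rv a (s * z) -
      Complex.normSq (ev (dz 7 a) (s * z)))) := by positivity
  have h5 : 0 < (μ * rv a (s * z)) ^ 3 := by positivity
  nlinarith only [h4, h5]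

theorem good_of_npc {a : Y 8} (ha : IsW a) (hc : NPC a) :
    AdW ((mu1 a : ℂ) • a) ∧ GoodW ((mu1 a : ℂ) • a) := by
  have hV0 : ∀ s, ∃ u, IsV ((mu1 (Ends.path a s) : ℂ) • Ends.path a s) u ∧ u ≠ 0 := by
    intro s
    obtain ⟨u, hu, hE⟩ := exists_isEig (isW_path ha s)
    exact ⟨u, isV_of_isEig hE, hu⟩
  have hadw : ∀ s ∈ Set.Icc (0 : ℝ) 1, AdW ((mu1 (Ends.path a s) : ℂ) • Ends.path a s) :=
    fun s hs => adW_path ha hc hs
  have hbase : GoodW ((mu1 (Ends.path a 0) : ℂ) • Ends.path a 0) := by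
    have e0 : (mu1 (Ends.path a 0) : ℂ) • Ends.path a 0 =
        ((mu1 (Ends.path a 0) * (ev a 0).re : ℝ) : ℂ) • one1 8 := by
      have : Ends.path a 0 = ev a 0 • one1 8 := Ends.path_zero a
      conv_lhs => rw [this]
      rw [smul_smul]
      push_cast
      rw [ev_real ha.real, ← this]
    have h1 := hadw 0 ⟨le_rfl, zero_le_one⟩
    have h2 := hV0 0
    rw [e0] at h1 h2 ⊢
    exact goodW_const h1 h2
  have hgood := path_theorem (w := fun s => (mu1 (Ends.path a s) : ℂ) • Ends.path a s) zero_le_one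
    (continuous_mu1_path ha).continuousOn hadw (fun s _ => hV0 s) hbase
  have h1 : Ends.path a 1 = a := Ends.path_one a
  have h2 := hadw 1 ⟨zero_le_one, le_rfl⟩
  simp only [h1] at h2 hgood
  exact ⟨h2, hgood⟩

/-- At a good weight no eigenfunction has a critical point in the open disc. -/
theorem dz_ne {w u : Y 8} (hw : AdW w) (h : GoodW w) (hu : IsV w u) (hu0 : u ≠ 0) {z : ℂ}
    (hz : ‖z‖ < 1) : ev (dz 7 u) z ≠ 0 := by
  have hn : 0 < ‖u‖ := norm_pos_iff.2 hu0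
  set u' : Y 8 := ((‖u‖⁻¹ : ℝ) : ℂ) • u with hu'
  have hV : IsV w u' := hu.smul _
  have hn1 : ‖u'‖ = 1 := by
    rw [hu', norm_ofReal_smul, abs_of_pos (by positivity), inv_mul_cancel₀ hn.ne']
  obtain ⟨v, c, ha⟩ := exists_adm hw hV hn1 (all_zero hw h hV)
  have hg := all_good hw h ha
  have hJ := hg.ge z hz.le
  have hψ := hg.pos z hz
  have hwz := hw.pos z hz.le
  have hJ0 : 0 < jac (ev (dz 7 u') z) (ev (dz 3 v) z) := by
    have e1 : J (i84 u') v z = jac (ev (dz 7 u') z) (ev (dz 3 v) z) := by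
      unfold J i84
      rw [dz_incl (by norm_num : 3 ≤ 7), ev_incl]
    rw [← e1]
    exact lt_of_lt_of_le (by (clear * - hwz hψ; positivity)) hJ
  intro h0
  have h1 : ev (dz 7 u') z = 0 := by rw [hu', map_smul, ev_smul, h0, mul_zero]
  rw [h1] at hJ0
  simp [jac] at hJ0

end Vale.Agent.P071.H262
end
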