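import Vale.Agent.P071.H262.Eig
import Vale.Agent.P071.H262.Path

set_option linter.all false

/-!
# The eigenspace
-/

open scoped ComplexConjugate Topology Real ContDiff ENNReal
open Metric Filter MeasureTheory

noncomputable section

namespace Vale.Agent.P071.H262

open Vale.Agent.P071

variable {p : ℕ}

theorem int_congr_k {κ : ℂ → ℝ} {k : Y 8} (hκ : ∀ z ∈ ball (0 : ℂ) 1, κ z = (ev k z).re)
    (f : ℂ → ℝ) : ∫ z in ball (0 : ℂ) 1, κ z * f z = ∫ z in ball (0 : ℂ) 1, (ev k z).re * f z :=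
  setIntegral_congr_fun measurableSet_ball fun z hz => by rw [hκ z hz]

theorem muD_eq {κ : ℂ → ℝ} {k : Y 8} (hk : IsW k) (hκ : ∀ z ∈ ball (0 : ℂ) 1, κ z = (ev k z).re) :
    muD κ = mu1 k := by
  obtain ⟨e, he0, he⟩ := exists_isEig hk
  have hpos : 0 < ∫ z in ball (0 : ℂ) 1, (ev k z).re * (ev e z).re ^ 2 := by
    have h1 := (isWeakInner_WB hk).pos e he0
    have h2 := WB_int hk.real he.real he.real
    have h3 : ∫ z in ball (0 : ℂ) 1, (ev k z).re * (ev e z).re ^ 2 = π * WB k e e := by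
      rw [← h2]
      congr 1; funext z; ring
    rw [h3]
    exact mul_pos Real.pi_pos h1
  have hmean : ∫ z in ball (0 : ℂ) 1, (ev k z).re * (ev e z).re = 0 := by
    rw [integral_k_re hk.real he.real, he.mean]; simp
  have hen := weak_of_isEig hk he (isH1_ev (p := 7) e)
  have e1 : ∫ z in ball (0 : ℂ) 1, (ev k z).re * ((ev e z).re * (ev e z).re) =
      ∫ z in ball (0 : ℂ) 1, (ev k z).re * (ev e z).re ^ 2 := by
    congr 1; funext z; ring
  have e2 : ∫ z in ball (0 : ℂ) 1, ((px fun z => (ev e z).re) z * (px fun z => (ev e z).re) z +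
      (py fun z => (ev e z).re) z * (py fun z => (ev e z).re) z) =
      ∫ z in ball (0 : ℂ) 1, ((px fun z => (ev e z).re) z ^ 2 + (py fun z => (ev e z).re) z ^ 2) := by
    congr 1; funext z; ring
  rw [e1, e2] at hen
  have hmem : mu1 k ∈ {q : ℝ | ∃ v gx gy : ℂ → ℝ, IsH1 (ball 0 1) v gx gy ∧
      ∫ z in ball (0 : ℂ) 1, κ z * v z = 0 ∧ 0 < ∫ z in ball (0 : ℂ) 1, κ z * v z ^ 2 ∧
      q = (∫ z in ball (0 : ℂ) 1, (gx z ^ 2 + gy z ^ 2)) /
        ∫ z in ball (0 : ℂ) 1, κ z * v z ^ 2} := by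
    refine ⟨_, _, _, isH1_ev (p := 7) e, ?_, ?_, ?_⟩
    · rw [int_congr_k hκ]; exact hmean
    · rw [int_congr_k hκ]; exact hpos
    · rw [int_congr_k hκ, hen, mul_div_cancel_right₀ _ hpos.ne']
  apply le_antisymm
  · refine csInf_le ⟨0, ?_⟩ hmem
    rintro q ⟨v, gx, gy, _, _, h, rfl⟩
    exact div_nonneg (integral_nonneg fun z => add_nonneg (sq_nonneg _) (sq_nonneg _)) h.le
  · refine le_csInf ⟨_, hmem⟩ ?_
    rintro q ⟨v, gx, gy, hv, h0, h, rfl⟩
    rw [int_congr_k hκ] at h0 h ⊢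
    rw [le_div_iff₀ h]
    exact poinc_H1 hk hv h0

theorem inVD_of_isEig {κ : ℂ → ℝ} {k e : Y 8} (hk : IsW k)
    (hκ : ∀ z ∈ ball (0 : ℂ) 1, κ z = (ev k z).re) (he : IsEig k (mu1 k) e) :
    InVD κ (fun z => (ev e z).re) := by
  refine ⟨_, _, isH1_ev (p := 7) e, fun v hx hy hv => ?_⟩
  rw [muD_eq hk hκ, int_congr_k hκ, weak_of_isEig hk he hv]

/-- The Riesz representation on a finite dimensional subspace. -/
theorem riesz {k : Y 8} (hk : IsW k) (E : Submodule ℝ (Y 8)) [FiniteDimensional ℝ E]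
    (L : E →ₗ[ℝ] ℝ) : ∃ e : E, ∀ x : E, WB k e x = L x := by
  let T : E →ₗ[ℝ] Module.Dual ℝ E :=
    { toFun := fun e => (WB k (e : Y 8)).toLinearMap ∘ₗ E.subtype
      map_add' := fun a b => by
        ext x
        simp
      map_smul' := fun c a => by
        ext x
        simp }
  have hT : Function.Injective T := by
    rw [injective_iff_map_eq_zero]
    intro e h
    by_contra hne
    have h1 : WB k (e : Y 8) e = 0 := congrArg (fun f : Module.Dual ℝ E => f e) h
    have h2 := (isWeakInner_WB hk).pos (e : Y 8) (fun h0 => hne (Subtype.ext h0))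
    rw [h1] at h2
    exact lt_irrefl _ h2
  have hS : Function.Surjective T :=
    (LinearMap.injective_iff_surjective_of_finrank_eq_finrank
      (Subspace.dual_finrank_eq (K := ℝ) (V := E)).symm).1 hT
  obtain ⟨e, he⟩ := hS L
  exact ⟨e, fun x => congrArg (fun f : Module.Dual ℝ E => f x) he⟩

/-- The eigenspace. -/
def ES (k : Y 8) : Submodule ℝ (Y 8) where
  carrier := {e | IsEig k (mu1 k) e}
  add_mem' := fun ha hb => ha.add hb
  zero_mem' := by
    have h : (0 : Y 8) = ((0 : ℝ) : ℂ) • (0 : Y 8) := by simp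
    refine ⟨?_, ?_, ?_⟩
    · have := cj_smul (0 : ℂ) (0 : Y 8)
      simpa using this
    · have := ser_mul_smul (0 : ℂ) k (0 : Y 8)
      rw [zero_smul, zero_smul] at this
      rw [this, map_zero]
    · rw [map_zero, smul_zero, zero_add]
      have : cf (0 : Y 8) 0 = 0 := by simp
      rw [this, zero_smul]
  smul_mem' := fun c a ha => by
    have h := IsEig.smul ha c
    have e : (c : ℂ) • a = c • a := Complex.coe_smul c a
    rw [e] at h
    exact h

theorem mem_ES {k e : Y 8} : e ∈ ES k ↔ IsEig k (mu1 k) e := Iff.rfl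

theorem finiteDimensional_ES {k : Y 8}
    (hinj : ∀ e, IsEig k (mu1 k) e → ev (dz 7 e) 0 = 0 → e = 0) : FiniteDimensional ℝ (ES k) := by
  have h0 : ‖(0 : ℂ)‖ ≤ 1 := by simp
  let T : ES k →ₗ[ℝ] ℂ :=
    ((((evL 7 0 h0).comp (dz 7)).toLinearMap).restrictScalars ℝ) ∘ₗ (ES k).subtype
  refine FiniteDimensional.of_injective T ?_
  rw [injective_iff_map_eq_zero]
  intro e h
  exact Subtype.ext (hinj e (mem_ES.1 e.2) h)

/-- The functional `ψ ↦ (1/π) ∫ κ f ψ`. -/
def prL (k : Y 8) {f : ℂ → ℝ} (hf : MemLp f 2 (volume.restrict (ball (0 : ℂ) 1))) :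
    Y 8 →ₗ[ℝ] ℝ where
  toFun ψ := π⁻¹ * ∫ z in ball (0 : ℂ) 1, (ev k z).re * f z * (ev ψ z).re
  map_add' a b := by
    rw [← mul_add, ← integral_add (int_pair (memLp_mul_ev k hf) (memLp_ev a))
      (int_pair (memLp_mul_ev k hf) (memLp_ev b))]
    congr 1
    refine setIntegral_congr_fun measurableSet_ball fun z hz => ?_
    rw [ev_add _ _ (mem_ball_zero_iff.1 hz).le, Complex.add_re]
    ring
  map_smul' c a := by
    have e : c • a = (c : ℂ) • a := (Complex.coe_smul c a).symm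
    have e2 : ∫ z in ball (0 : ℂ) 1, (ev k z).re * f z * (ev (c • a) z).re =
        c * ∫ z in ball (0 : ℂ) 1, (ev k z).re * f z * (ev a z).re := by
      rw [← integral_const_mul]
      congr 1
      funext z
      rw [e, ev_smul, Complex.re_ofReal_mul]
      ring
    rw [e2, RingHom.id_apply, smul_eq_mul]
    ring

theorem prL_apply (k : Y 8) {f : ℂ → ℝ} (hf : MemLp f 2 (volume.restrict (ball (0 : ℂ) 1)))
    (ψ : Y 8) : prL k hf ψ = π⁻¹ * ∫ z in ball (0 : ℂ) 1, (ev k z).re * f z * (ev ψ z).re := rfl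

theorem exists_eig_of_inVD {κ : ℂ → ℝ} {k : Y 8} (hk : IsW k)
    (hκ : ∀ z ∈ ball (0 : ℂ) 1, κ z = (ev k z).re)
    (hinj : ∀ e, IsEig k (mu1 k) e → ev (dz 7 e) 0 = 0 → e = 0) {u : ℂ → ℝ} (hu : InVD κ u) :
    ∃ e, IsEig k (mu1 k) e ∧ ∀ᵐ z ∂(volume.restrict (ball (0 : ℂ) 1)), u z = (ev e z).re := by
  have hfd := finiteDimensional_ES hinj
  obtain ⟨gx, gy, hH, hw⟩ := hu
  have hμ := mu1_pos hk
  have hum := hH.v_mem
  rw [muD_eq hk hκ] at hw
  simp only [int_congr_k hκ] at hw
  obtain ⟨e₀, he₀⟩ := riesz hk (ES k) ((prL k hum) ∘ₗ (ES k).subtype)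
  have he₀E : IsEig k (mu1 k) e₀ := mem_ES.1 e₀.2
  have hpi := Real.pi_pos
  -- orthogonality to the eigenspace
  set d : ℂ → ℝ := fun z => u z - (ev (e₀ : Y 8) z).re with hd
  have hdm : MemLp d 2 (volume.restrict (ball (0 : ℂ) 1)) := hum.sub (memLp_ev _)
  have hsplit : ∀ ψ : Y 8, ∫ z in ball (0 : ℂ) 1, (ev k z).re * d z * (ev ψ z).re =
      (∫ z in ball (0 : ℂ) 1, (ev k z).re * u z * (ev ψ z).re) -
        ∫ z in ball (0 : ℂ) 1, (ev k z).re * (ev (e₀ : Y 8) z).re * (ev ψ z).re := by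
    intro ψ
    rw [← integral_sub (int_pair (memLp_mul_ev k hum) (memLp_ev ψ))
      (int_pair (memLp_mul_ev k (memLp_ev _)) (memLp_ev ψ))]
    congr 1
    funext z
    simp only [hd]
    ring
  have hWe : ∀ ψ : Y 8, cj ψ = ψ →
      ∫ z in ball (0 : ℂ) 1, (ev k z).re * (ev (e₀ : Y 8) z).re * (ev ψ z).re =
      π * WB k (e₀ : Y 8) ψ := by
    intro ψ hψ
    rw [← WB_int hk.real he₀E.real hψ]
    congr 1; funext z; ring
  have h1 : ∀ x : Y 8, IsEig k (mu1 k) x →
      ∫ z in ball (0 : ℂ) 1, (ev k z).re * d z * (ev x z).re = 0 := by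
    intro x hx
    have h2 := he₀ ⟨x, mem_ES.2 hx⟩
    have h3 : WB k (e₀ : Y 8) x = π⁻¹ * ∫ z in ball (0 : ℂ) 1, (ev k z).re * u z * (ev x z).re := h2
    rw [hsplit, hWe x hx.real, h3]
    field_simp
    ring
  -- orthogonality to the constants
  have h2 : ∫ z in ball (0 : ℂ) 1, (ev k z).re * d z * (ev (one1 8) z).re = 0 := by
    have h3 := hw _ _ _ (Lim.tgt_isH1_one isOpen_ball measure_ball_lt_top)
    simp only [mul_zero, add_zero, integral_zero, mul_one] at h3
    have h4 : ∫ z in ball (0 : ℂ) 1, (ev k z).re * u z = 0 := by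
      rcases mul_eq_zero.1 h3.symm with h | h
      · exact absurd h hμ.ne'
      · exact h
    have h5 : ∫ z in ball (0 : ℂ) 1, (ev k z).re * (ev (e₀ : Y 8) z).re = 0 := by
      rw [integral_k_re hk.real he₀E.real, he₀E.mean]; simp
    rw [hsplit]
    simp only [ev_one1, Complex.one_re, mul_one]
    rw [h4, h5, sub_zero]
  -- orthogonality to the complement
  have h3 : ∀ s : Y 8, cj s = s → I 8 (k * s) = 0 → (∀ x, IsEig k (mu1 k) x → WB k s x = 0) →
      ∫ z in ball (0 : ℂ) 1, (ev k z).re * d z * (ev s z).re = 0 := by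
    intro s hs hsm hso
    have hT0r : cj (T0 k s) = T0 k s := by rw [cj_T0 hk.real, hs]
    obtain ⟨v, hvr, hvm, ⟨α, hve⟩, -⟩ := source_solve hk hμ.ne' (n := T0 k s) hT0r (by
      intro w hw
      have e1 : WB k (T0 k s) w = 0 := by
        have e2 : PL k w = w := PL_of_mean hw.mean
        have e3 : WB k (T0 k s) w = WB k (KR k s) w := by
          rw [KR_apply, PL_of_mean hsm, WB_PL hk, e2]
        have e4 : mu1 k • KR k w = w := hw.KR_eq hk
        have e5 : mu1 k * WB k s (KR k w) = 0 := by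
          rw [← smul_eq_mul, ← map_smul, e4, hso w hw]
        rw [e3, KR_symm hk]
        exact (mul_eq_zero.1 e5).resolve_left hμ.ne'
      rw [WB_complex hT0r] at e1
      have e6 : cj (k * (T0 k s * w)) = k * (T0 k s * w) := by
        rw [cj_mul, cj_mul, hk.real, hT0r, hw.real]
      rw [← I_real e6, e1, Complex.ofReal_zero])
    -- the equation and the boundary condition of `v`
    have hlap : lap 6 v = -incl (show 6 ≤ 8 by norm_num) (k * ((mu1 k : ℂ) • v + s)) := by
      conv_lhs => rw [hve]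
      rw [map_add, map_add, map_smul, map_smul]
      have l1 : lap 6 (T0 k v) = -incl (show 6 ≤ 8 by norm_num) (k * v) := lap_T0 (p := 6) k v
      have l2 : lap 6 (T0 k s) = -incl (show 6 ≤ 8 by norm_num) (k * s) := lap_T0 (p := 6) k s
      have l3 : lap 6 (one1 8) = 0 := by
        have : (one1 8 : Y 8) = e 8 0 := rfl
        rw [lap_apply, this, dzb_e]
        simp
      rw [l1, l2, l3, smul_zero, add_zero, ser_mul_add, ser_mul_smul, map_add, map_smul]
      module
    have hRad : ∀ z, ‖z‖ = 1 → ev (Rad 7 v) z = 0 := by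
      intro z hz
      rw [hve, map_add, map_add, map_smul, map_smul, ev_add _ _ hz.le, ev_add _ _ hz.le, ev_smul,
        ev_smul, G.Rad_one1]
      have r1 : ev (Rad 7 (T0 k v)) z = -(1 / 2) * I 8 (k * v) := ev_Rad_T0 (p := 7) k v hz
      have r2 : ev (Rad 7 (T0 k s)) z = -(1 / 2) * I 8 (k * s) := ev_Rad_T0 (p := 7) k s hz
      rw [r1, r2, hvm, hsm]
      have : ev (0 : Y 7) z = 0 := by simp [ev]
      rw [this]
      ring
    have g1 := weak_green (p := 6) hH v hRad
    have g2 := hw _ _ _ (isH1_ev (p := 7) v)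
    have g3 : ∫ z in ball (0 : ℂ) 1, (gx z * (px fun z => (ev v z).re) z +
        gy z * (py fun z => (ev v z).re) z) =
        ∫ z in ball (0 : ℂ) 1, (gx z * (ev (dx 7 v) z).re + gy z * (ev (dy 7 v) z).re) :=
      setIntegral_congr_fun measurableSet_ball fun z hz => by
        simp only [px_ev v (mem_ball_zero_iff.1 hz), py_ev v (mem_ball_zero_iff.1 hz)]
    have g4 : -∫ z in ball (0 : ℂ) 1, u z * (ev (lap 6 v) z).re =
        mu1 k * (∫ z in ball (0 : ℂ) 1, (ev k z).re * (u z * (ev v z).re)) +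
          ∫ z in ball (0 : ℂ) 1, (ev k z).re * u z * (ev s z).re := by
      have i1 := int_pair (memLp_mul_ev k hum) (memLp_ev v)
      have i2 := int_pair (memLp_mul_ev k hum) (memLp_ev s)
      have e1 : ∫ z in ball (0 : ℂ) 1, (ev k z).re * (u z * (ev v z).re) =
          ∫ z in ball (0 : ℂ) 1, (ev k z).re * u z * (ev v z).re := by
        congr 1; funext z; ring
      rw [e1, ← integral_neg, ← integral_const_mul, ← integral_add (i1.const_mul _) i2]
      refine setIntegral_congr_fun measurableSet_ball fun z hz => ?_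
      have hz' := (mem_ball_zero_iff.1 hz).le
      rw [hlap, ev_neg, ev_incl, ev_mul _ _ hz', ev_add _ _ hz', ev_smul, ← ev_real hk.real z,
        ← ev_real hvr z, ← ev_real hs z, ← Complex.ofReal_mul, ← Complex.ofReal_add,
        ← Complex.ofReal_mul, ← Complex.ofReal_neg, Complex.ofReal_re, Complex.ofReal_re,
        Complex.ofReal_re, Complex.ofReal_re]
      ring
    have g5 : ∫ z in ball (0 : ℂ) 1, (ev k z).re * u z * (ev s z).re = 0 := by
      rw [g3, g1, g4] at g2
      linarith only [g2]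
    rw [hsplit, g5, hWe s hs, (isWeakInner_WB hk).symm, hso _ he₀E]
    simp
  -- orthogonality to all real series
  have h4 : ∀ ψ : Y 8, cj ψ = ψ → ∫ z in ball (0 : ℂ) 1, (ev k z).re * d z * (ev ψ z).re = 0 := by
    intro ψ hψ
    have hPr : cj (PL k ψ) = PL k ψ := by rw [cj_PL hk.real, hψ]
    obtain ⟨x, hx⟩ := riesz hk (ES k) ((WB k (PL k ψ)).toLinearMap ∘ₗ (ES k).subtype)
    have hxE : IsEig k (mu1 k) x := mem_ES.1 x.2
    set s : Y 8 := PL k ψ - x with hs
    have s1 : cj s = s := by rw [hs, cj_sub, hPr, hxE.real]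
    have s2 : I 8 (k * s) = 0 := by
      rw [hs, ser_mul_sub, map_sub, I_PL hk.mass_ne, hxE.mean, sub_zero]
    have s3 : ∀ y, IsEig k (mu1 k) y → WB k s y = 0 := by
      intro y hy
      have h5 : WB k (x : Y 8) y = WB k (PL k ψ) y := hx ⟨y, mem_ES.2 hy⟩
      rw [hs, map_sub, sub_apply, h5, sub_self]
    have h6 := h3 s s1 s2 s3
    have h7 := h1 x hxE
    set c : ℂ := I 8 (k * ψ) / I 8 k with hc
    have hcr : ((c.re : ℝ) : ℂ) = c := by
      have a1 : cj (k * ψ) = k * ψ := by rw [cj_mul, hk.real, hψ]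
      rw [hc, ← I_real a1, ← hk.mass_eq, ← Complex.ofReal_div, Complex.ofReal_re]
    have e1 : ψ = s + x + c • one1 8 := by
      rw [hs, PL_apply]
      module
    have i1 := int_pair (memLp_mul_ev k hdm) (memLp_ev s)
    have i2 := int_pair (memLp_mul_ev k hdm) (memLp_ev (x : Y 8))
    have i3 := int_pair (memLp_mul_ev k hdm) (memLp_ev (one1 8))
    have e2 : ∫ z in ball (0 : ℂ) 1, (ev k z).re * d z * (ev ψ z).re =
        (∫ z in ball (0 : ℂ) 1, (ev k z).re * d z * (ev s z).re) +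
        (∫ z in ball (0 : ℂ) 1, (ev k z).re * d z * (ev (x : Y 8) z).re) +
        c.re * ∫ z in ball (0 : ℂ) 1, (ev k z).re * d z * (ev (one1 8) z).re := by
      have i12 : Integrable (fun z => (ev k z).re * d z * (ev s z).re +
          (ev k z).re * d z * (ev (x : Y 8) z).re) (volume.restrict (ball (0 : ℂ) 1)) := i1.add i2
      rw [← integral_const_mul, ← integral_add i1 i2, ← integral_add i12 (i3.const_mul _)]
      refine setIntegral_congr_fun measurableSet_ball fun z hz => ?_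
      have hz' := (mem_ball_zero_iff.1 hz).le
      conv_lhs => rw [e1]
      rw [ev_add _ _ hz', ev_add _ _ hz', ev_smul, ← hcr, Complex.add_re, Complex.add_re,
        Complex.re_ofReal_mul, Complex.ofReal_re]
      ring
    rw [e2, h6, h7, h2]
    ring
  -- conclusion
  obtain ⟨s, hs1, hT⟩ := exists_L2 (p := 8) hdm
  have T1 := tendsto_pair hdm (memLp_mul_ev k hdm) (fun n => memLp_ev (s n)) hT
  have T2 : ∫ z in ball (0 : ℂ) 1, (ev k z).re * d z * d z = 0 := by
    refine (tendsto_nhds_unique (tendsto_const_nhds.congr fun n => ?_) T1).symm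
    exact (h4 (s n) (hs1 n)).symm
  refine ⟨e₀, he₀E, ?_⟩
  have i1 := int_pair (memLp_mul_ev k hdm) hdm
  have h5 : 0 ≤ᵐ[volume.restrict (ball (0 : ℂ) 1)] fun z => (ev k z).re * d z * d z := by
    filter_upwards [ae_restrict_mem measurableSet_ball] with z hz
    have := hk.pos z (mem_ball_zero_iff.1 hz).le
    show 0 ≤ (ev k z).re * d z * d z
    rw [mul_assoc]
    exact mul_nonneg this.le (mul_self_nonneg _)
  have h6 := (integral_eq_zero_iff_of_nonneg_ae h5 i1).1 T2
  filter_upwards [h6, ae_restrict_mem measurableSet_ball] with z hz1 hz2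
  have hp := hk.pos z (mem_ball_zero_iff.1 hz2).le
  have h7 : (ev k z).re * d z * d z = 0 := hz1
  have h8 : d z = 0 := by
    rcases mul_eq_zero.1 h7 with h | h
    · exact (mul_eq_zero.1 h).resolve_left hp.ne'
    · exact h
  have h9 : u z - (ev (e₀ : Y 8) z).re = 0 := h8
  linarith only [h9]

end Vale.Agent.P071.H262
end
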